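import Vale.Agent.P099.Eigen

/-!
P099: two diagonals from one vertex.
-/

open scoped ComplexConjugate
open Complex Filter Topology Set

noncomputable section

namespace Vale.Agent.P099

variable {b : AffineBasis (Fin 3) ℝ ℂ} {x : ℂ} {f : ℂ → ℂ → ℂ} {l : ℝ}

/-- On a corridor the exit sides are constant and the map is constant. -/
theorem G_eq_of_good {J : Set ℝ} (hJ : IsPreconnected J) (h0 : ∀ θ ∈ J, Inw b x (dirv θ)) {n : ℕ}
    (hg : ∀ θ ∈ J, Good b x n θ) {k : ℕ} (hk : k ≤ n) {θ θ' : ℝ} (h : θ ∈ J) (h' : θ' ∈ J) :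
    G b x k θ = G b x k θ' :=
  (reg hJ h0 k fun t ht => (hg t ht).mono hk).gconst θ h θ' h'

/-- Continuity of the collision times on a corridor. -/
theorem Tm_cont {J : Set ℝ} (hJ : IsPreconnected J) (h0 : ∀ θ ∈ J, Inw b x (dirv θ)) {n : ℕ}
    (hg : ∀ θ ∈ J, Good b x n θ) : ∀ k ≤ n + 1, ContinuousOn (Tm b x k) J := by
  intro k hk
  rcases Nat.le_or_eq_of_le_succ hk with h | h
  · exact (reg hJ h0 k fun t ht => (hg t ht).mono h).cont
  · rw [h]; exact (reg hJ h0 n hg).cont_succ h0 hg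

theorem exp_lI_eq {a c : ℝ} (h : Complex.exp ((a : ℂ) * Complex.I) = Complex.exp ((c : ℂ) * Complex.I))
    (hlt : |a - c| < 2 * Real.pi) : a = c := by
  have h1 : Complex.exp (((a - c : ℝ) : ℂ) * Complex.I) = 1 := by
    rw [Complex.ofReal_sub, sub_mul, Complex.exp_sub, h, div_self (Complex.exp_ne_zero _)]
  obtain ⟨m, hm⟩ := Complex.exp_eq_one_iff.1 h1
  have him : a - c = m * (2 * Real.pi) := by
    have := congrArg Complex.im hm
    simpa using this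
  have hm0 : |(m : ℝ)| < 1 := by
    rw [him, abs_mul, abs_of_pos (by positivity : (0 : ℝ) < 2 * Real.pi)] at hlt
    nlinarith [Real.pi_pos]
  have : m = 0 := by
    rw [← Int.abs_lt_one_iff]
    exact_mod_cast hm0
  rw [this] at him
  simp at him; linarith

theorem norm_dirv_sub (a c : ℝ) : ‖dirv a - dirv c‖ ≤ |a - c| := by
  have : dirv a - dirv c = dirv c * (Complex.exp (Complex.I * ((a - c : ℝ) : ℂ)) - 1) := by
    simp only [dirv, mul_sub, ← Complex.exp_add, mul_one]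
    congr 1
    congr 1
    push_cast; ring
  rw [this, norm_mul, norm_dirv, one_mul]
  exact Real.norm_exp_I_mul_ofReal_sub_one_le.trans_eq (Real.norm_eq_abs _)

/-- The denominator of the segment between two points on rays. -/
def den (L₀ Lw a c θ : ℝ) : ℝ := L₀ * Real.sin (θ - a) + Lw * Real.sin (c - θ)

/-- The distance to the segment along the ray of angle `θ`. -/
def tt (L₀ Lw a c θ : ℝ) : ℝ := L₀ * Lw * Real.sin (c - a) / den L₀ Lw a c θ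

/-- The parameter on the segment of the ray of angle `θ`. -/
def ss (L₀ Lw a c θ : ℝ) : ℝ := L₀ * Real.sin (θ - a) / den L₀ Lw a c θ

section Geo

variable {L₀ Lw a c : ℝ}

theorem den_pos (h0 : 0 < L₀) (hw : 0 < Lw) (hac : a < c) (hpi : c - a < Real.pi) {θ : ℝ}
    (hθ : θ ∈ Icc a c) : 0 < den L₀ Lw a c θ := by
  have h2 : 0 ≤ Real.sin (c - θ) :=
    Real.sin_nonneg_of_nonneg_of_le_pi (by linarith [hθ.2]) (by linarith [hθ.1])
  have := mul_nonneg hw.le h2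
  rcases hθ.1.lt_or_eq with h | h
  · have h1 : 0 < Real.sin (θ - a) :=
      Real.sin_pos_of_pos_of_lt_pi (by linarith) (by linarith [hθ.2])
    have := mul_pos h0 h1
    rw [den]; linarith
  · subst h
    rw [den, sub_self, Real.sin_zero, mul_zero, zero_add]
    exact mul_pos hw (Real.sin_pos_of_pos_of_lt_pi (by linarith) hpi)

theorem line_eq (h0 : 0 < L₀) (hw : 0 < Lw) (hac : a < c) (hpi : c - a < Real.pi) (x : ℂ) {θ : ℝ}
    (hθ : θ ∈ Icc a c) :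
    x + tt L₀ Lw a c θ • dirv θ = (x + L₀ • dirv a) +
      ss L₀ Lw a c θ • ((x + Lw • dirv c) - (x + L₀ • dirv a)) := by
  have hd := (den_pos h0 hw hac hpi hθ).ne'
  have key : Real.sin (c - a) • dirv θ =
      Real.sin (c - θ) • dirv a + Real.sin (θ - a) • dirv c := by
    apply Complex.ext <;>
    · simp only [Complex.add_re, Complex.add_im, Complex.real_smul, Complex.mul_re,
        Complex.mul_im, Complex.ofReal_re, Complex.ofReal_im, dirv_re, dirv_im, Real.sin_sub]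
      ring
  have h1 : tt L₀ Lw a c θ • dirv θ = (L₀ * Lw / den L₀ Lw a c θ) • (Real.sin (c - a) • dirv θ) := by
    rw [smul_smul, tt]; congr 1; ring
  have h2 : ss L₀ Lw a c θ • ((x + Lw • dirv c) - (x + L₀ • dirv a)) =
      (ss L₀ Lw a c θ * Lw) • dirv c - (ss L₀ Lw a c θ * L₀) • dirv a := by
    rw [add_sub_add_left_eq_sub, smul_sub, smul_smul, smul_smul]
  rw [h1, key, h2, smul_add, smul_smul, smul_smul]
  have a1 : L₀ * Lw / den L₀ Lw a c θ * Real.sin (θ - a) = ss L₀ Lw a c θ * Lw := by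
    rw [ss]; field_simp
  have a2 : L₀ * Lw / den L₀ Lw a c θ * Real.sin (c - θ) = L₀ - ss L₀ Lw a c θ * L₀ := by
    rw [ss, eq_sub_iff_add_eq, div_mul_eq_mul_div, div_mul_eq_mul_div, ← add_div,
      div_eq_iff hd, den]
    ring
  rw [a1, a2, sub_smul]; abel

theorem ss_mem (h0 : 0 < L₀) (hw : 0 < Lw) (hac : a < c) (hpi : c - a < Real.pi) {θ : ℝ}
    (hθ : θ ∈ Icc a c) : 0 ≤ ss L₀ Lw a c θ ∧ ss L₀ Lw a c θ ≤ 1 := by
  have hd := den_pos h0 hw hac hpi hθ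
  have h1 : 0 ≤ Real.sin (θ - a) :=
    Real.sin_nonneg_of_nonneg_of_le_pi (by linarith [hθ.1]) (by linarith [hθ.2])
  have h2 : 0 ≤ Real.sin (c - θ) :=
    Real.sin_nonneg_of_nonneg_of_le_pi (by linarith [hθ.2]) (by linarith [hθ.1])
  refine ⟨div_nonneg (mul_nonneg h0.le h1) hd.le, (div_le_one hd).2 ?_⟩
  rw [den]; nlinarith

theorem tt_pos (h0 : 0 < L₀) (hw : 0 < Lw) (hac : a < c) (hpi : c - a < Real.pi) {θ : ℝ}
    (hθ : θ ∈ Icc a c) : 0 < tt L₀ Lw a c θ :=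
  div_pos (mul_pos (mul_pos h0 hw) (Real.sin_pos_of_pos_of_lt_pi (by linarith) hpi))
    (den_pos h0 hw hac hpi hθ)

theorem tt_left (hw : 0 < Lw) (hac : a < c) (hpi : c - a < Real.pi) :
    tt L₀ Lw a c a = L₀ := by
  have := Real.sin_pos_of_pos_of_lt_pi (show 0 < c - a by linarith) hpi
  rw [tt, den, sub_self, Real.sin_zero, mul_zero, zero_add, mul_assoc]
  exact mul_div_cancel_right₀ _ (mul_pos hw this).ne'

theorem tt_right (h0 : 0 < L₀) (hac : a < c) (hpi : c - a < Real.pi) :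
    tt L₀ Lw a c c = Lw := by
  have := Real.sin_pos_of_pos_of_lt_pi (show 0 < c - a by linarith) hpi
  rw [tt, den, sub_self, Real.sin_zero, mul_zero, add_zero]
  field_simp

theorem ss_left : ss L₀ Lw a c a = 0 := by simp [ss]

theorem ss_right (h0 : 0 < L₀) (hac : a < c) (hpi : c - a < Real.pi) :
    ss L₀ Lw a c c = 1 := by
  rw [ss, den, sub_self, Real.sin_zero, mul_zero, add_zero]
  exact div_self (mul_pos h0 (Real.sin_pos_of_pos_of_lt_pi (by linarith) hpi)).ne'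

theorem tt_cont (h0 : 0 < L₀) (hw : 0 < Lw) (hac : a < c) (hpi : c - a < Real.pi) :
    ContinuousOn (tt L₀ Lw a c) (Icc a c) :=
  ContinuousOn.div continuousOn_const (by unfold den; fun_prop)
    fun θ hθ => (den_pos h0 hw hac hpi hθ).ne'

theorem ss_cont (h0 : 0 < L₀) (hw : 0 < Lw) (hac : a < c) (hpi : c - a < Real.pi) :
    ContinuousOn (ss L₀ Lw a c) (Icc a c) :=
  ContinuousOn.div (by fun_prop) (by unfold den; fun_prop)
    fun θ hθ => (den_pos h0 hw hac hpi hθ).ne'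

theorem seg_big (x : ℂ) (h0 : 0 < L₀) (hw : 0 < Lw) (hac : a < c) (hpi : c - a < Real.pi) :
    |Lw - L₀| < ‖(x + Lw • dirv c) - (x + L₀ • dirv a)‖ := by
  refine lt_of_pow_lt_pow_left₀ 2 (norm_nonneg _) ?_
  have hsq : ‖(x + Lw • dirv c) - (x + L₀ • dirv a)‖ ^ 2 =
      Lw ^ 2 + L₀ ^ 2 - 2 * Lw * L₀ * Real.cos (c - a) := by
    rw [add_sub_add_left_eq_sub, Complex.sq_norm, Complex.normSq_apply]
    simp only [Complex.sub_re, Complex.sub_im, Complex.real_smul, Complex.mul_re, Complex.mul_im,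
      Complex.ofReal_re, Complex.ofReal_im, dirv_re, dirv_im, zero_mul, sub_zero, add_zero,
      Real.cos_sub]
    linear_combination Lw ^ 2 * Real.sin_sq_add_cos_sq c + L₀ ^ 2 * Real.sin_sq_add_cos_sq a
  have hcos : Real.cos (c - a) < 1 := by
    have := Real.cos_lt_cos_of_nonneg_of_le_pi le_rfl hpi.le (show 0 < c - a by linarith)
    simpa using this
  rw [sq_abs, hsq]
  nlinarith [mul_pos hw h0]

theorem seg_small (x : ℂ) (h0 : 0 < L₀) (hac : a < c) :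
    ‖(x + Lw • dirv c) - (x + L₀ • dirv a)‖ ≤ |Lw - L₀| + L₀ * (c - a) := by
  have e : (x + Lw • dirv c) - (x + L₀ • dirv a) =
      (Lw - L₀) • dirv c + L₀ • (dirv c - dirv a) := by
    rw [add_sub_add_left_eq_sub, sub_smul, smul_sub]; abel
  rw [e]
  refine (norm_add_le _ _).trans (add_le_add ?_ ?_)
  · rw [norm_smul, Real.norm_eq_abs, norm_dirv, mul_one]
  · rw [norm_smul, Real.norm_eq_abs, abs_of_pos h0]
    exact mul_le_mul_of_nonneg_left ((norm_dirv_sub _ _).trans_eq (abs_of_pos (by linarith))) h0.le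

end Geo

/-- Two nearby singular directions and the corridor between them. -/
structure Twin (b : AffineBasis (Fin 3) ℝ ℂ) (x : ℂ) (M K : ℕ) (θ₁ θw θ₂ δ : ℝ) : Prop where
  hδ : 0 < δ
  hU : ∀ θ ∈ Ioo (θ₁ - δ) (θ₁ + δ), Inw b x (dirv θ) ∧ Good b x M θ
  h2δ : θ₂ < θ₁ + δ
  hw : θw ∈ Ioo θ₁ θ₂
  hpi : θw - θ₁ < Real.pi
  hI : ∀ θ ∈ Ioo θ₁ θ₂, Good b x K θ
  hsM : ¬ Smp b x M θ₁
  hsK : ¬ Smp b x K θw
  hMK : M ≤ K

section Twin

variable {M K : ℕ} {θ₁ θw θ₂ δ : ℝ}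

theorem Twin.subU (T : Twin b x M K θ₁ θw θ₂ δ) :
    Ioo θ₁ θ₂ ⊆ Ioo (θ₁ - δ) (θ₁ + δ) :=
  fun θ h => ⟨by linarith [h.1, T.hδ], by linarith [h.2, T.h2δ]⟩

theorem Twin.mem₁ (T : Twin b x M K θ₁ θw θ₂ δ) : θ₁ ∈ Ioo (θ₁ - δ) (θ₁ + δ) :=
  ⟨by linarith [T.hδ], by linarith [T.hδ]⟩

theorem Twin.inw (T : Twin b x M K θ₁ θw θ₂ δ) : ∀ θ ∈ Ioo θ₁ θ₂, Inw b x (dirv θ) :=
  fun θ h => (T.hU θ (T.subU h)).1

theorem Twin.L0_pos (T : Twin b x M K θ₁ θw θ₂ δ) : 0 < Tm b x (M + 1) θ₁ :=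
  lt_of_le_of_lt (Tm_nonneg (T.hU _ T.mem₁).1 (T.hU _ T.mem₁).2 (by omega : M ≤ M + 1))
    (Tm_lt (T.hU _ T.mem₁).1 (T.hU _ T.mem₁).2 le_rfl)

theorem Twin.Lw_pos (T : Twin b x M K θ₁ θw θ₂ δ) : 0 < Tm b x (K + 1) θw :=
  lt_of_le_of_lt (Tm_nonneg (T.inw _ T.hw) (T.hI _ T.hw) (by omega : K ≤ K + 1))
    (Tm_lt (T.inw _ T.hw) (T.hI _ T.hw) le_rfl)

theorem Twin.hgG (T : Twin b x M K θ₁ θw θ₂ δ) {k : ℕ} (hk : k ≤ K) {θ : ℝ}
    (hθ : θ ∈ Ioo θ₁ θ₂) : G b x k θ = G b x k θw :=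
  G_eq_of_good isPreconnected_Ioo T.inw T.hI hk hθ T.hw

theorem Twin.hgM' (T : Twin b x M K θ₁ θw θ₂ δ) {k : ℕ} (hk : k ≤ M) :
    G b x k θw = G b x k θ₁ :=
  G_eq_of_good isPreconnected_Ioo (fun t ht => (T.hU t ht).1) (fun t ht => (T.hU t ht).2) hk
    (T.subU T.hw) T.mem₁

theorem Twin.hTc (T : Twin b x M K θ₁ θw θ₂ δ) {k : ℕ} (hk : k ≤ K + 1) {θ : ℝ}
    (hθ : θ ∈ Ioo θ₁ θ₂) : ContinuousAt (Tm b x k) θ :=
  (Tm_cont isPreconnected_Ioo T.inw T.hI k hk).continuousAt (isOpen_Ioo.mem_nhds hθ)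

theorem Twin.hca (T : Twin b x M K θ₁ θw θ₂ δ) {k : ℕ} (hk : k ≤ M + 1) :
    ContinuousAt (Tm b x k) θ₁ :=
  (Tm_cont isPreconnected_Ioo (fun t ht => (T.hU t ht).1) (fun t ht => (T.hU t ht).2) k
    hk).continuousAt (isOpen_Ioo.mem_nhds T.mem₁)

theorem Twin.sub' (T : Twin b x M K θ₁ θw θ₂ δ) : Ioo θ₁ θw ⊆ Ioo θ₁ θ₂ :=
  fun θ h => ⟨h.1, h.2.trans T.hw.2⟩

/-- The distance along the ray to the segment joining the two singular points. -/
abbrev tw (b : AffineBasis (Fin 3) ℝ ℂ) (x : ℂ) (M K : ℕ) (θ₁ θw θ : ℝ) : ℝ :=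
  tt (Tm b x (M + 1) θ₁) (Tm b x (K + 1) θw) θ₁ θw θ

/-- The parameter on the segment joining the two singular points. -/
abbrev sw (b : AffineBasis (Fin 3) ℝ ℂ) (x : ℂ) (M K : ℕ) (θ₁ θw θ : ℝ) : ℝ :=
  ss (Tm b x (M + 1) θ₁) (Tm b x (K + 1) θw) θ₁ θw θ

/-- The segment joining the two singular points. -/
def chord (b : AffineBasis (Fin 3) ℝ ℂ) (x : ℂ) (M K : ℕ) (θ₁ θw : ℝ) : ℂ :=
  (x + Tm b x (K + 1) θw • dirv θw) - (x + Tm b x (M + 1) θ₁ • dirv θ₁)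

/-- The part of the corridor in the `k`-th copy of the triangle. -/
def Sk (b : AffineBasis (Fin 3) ℝ ℂ) (x : ℂ) (M K : ℕ) (θ₁ θw : ℝ) (k : ℕ) : Set ℝ :=
  {θ | θ ∈ Ioo θ₁ θw ∧ Tm b x k θ ≤ tw b x M K θ₁ θw θ ∧
    tw b x M K θ₁ θw θ ≤ Tm b x (k + 1) θ}

theorem Sk_subset {M K : ℕ} {θ₁ θw : ℝ} {k : ℕ} : Sk b x M K θ₁ θw k ⊆ Icc θ₁ θw :=
  fun _ h => Ioo_subset_Icc_self h.1

/-- The transported value. -/
def Fk (b : AffineBasis (Fin 3) ℝ ℂ) (x : ℂ) (f : ℂ → ℂ → ℂ) (l : ℝ) (M K : ℕ) (θ₁ θw : ℝ)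
    (k : ℕ) (θ : ℝ) : ℂ :=
  f (G b x k θw (x + tw b x M K θ₁ θw θ • dirv θ))
      ((G b x k θw).linear (‖chord b x M K θ₁ θw‖⁻¹ • chord b x M K θ₁ θw)) *
    Complex.exp ((-(l * (sw b x M K θ₁ θw θ * ‖chord b x M K θ₁ θw‖)) : ℝ) * Complex.I)

theorem Twin.below (T : Twin b x M K θ₁ θw θ₂ δ) :
    ∀ θ ∈ Ioo θ₁ θw, tw b x M K θ₁ θw θ ≤ Tm b x (K + 1) θ := by
  intro θ hθ
  set L0 := Tm b x (M + 1) θ₁ with hL0
  set Lw := Tm b x (K + 1) θw with hLw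
  set V : ℂ := x + L0 • dirv θ₁ with hVdef
  set W : ℂ := x + Lw • dirv θw with hWdef
  have hac : θ₁ < θw := T.hw.1
  have hL0pos : 0 < L0 := T.L0_pos
  have hLwpos : 0 < Lw := T.Lw_pos
  have hMK := T.hMK
  have hI0 := T.inw
  have hIg := T.hI
  have hI'I := T.sub'
  have hI'Icc : Ioo θ₁ θw ⊆ Icc θ₁ θw := Ioo_subset_Icc_self
  have hθw := T.hw
  by_contra! hlt
  have hθI := hI'I hθ
  have hi := inw_pos (hI0 θ hθI) (hIg θ hθI) K le_rfl
  obtain ⟨hcj, hmj⟩ := hi.jex_pos (vel_ne_zero K θ)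
  set j := jex b (pos b x K θ) (vel b x K θ)
  have hφx : 0 < b.coord j (G b x K θw x) := by
    have := G_line (b := b) (x := x) K θ 0
    rw [zero_smul, add_zero, T.hgG (le_refl K) hθI] at this
    rw [this, coord_aff, zero_sub]
    have := Tm_nonneg (hI0 θ hθI) (hIg θ hθI) (by omega : K ≤ K + 1)
    nlinarith
  have hφW : 0 ≤ b.coord j (G b x K θw W) := exit_mem (hI0 θw hθw) (hIg θw hθw) le_rfl j
  have hφV : 0 ≤ b.coord j (G b x K θw V) := by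
    have hne : (𝓝[(Ioo θ₁ θw)] θ₁).NeBot := mem_closure_iff_nhdsWithin_neBot.1
      (by rw [closure_Ioo (by linarith : θ₁ ≠ θw)]; exact ⟨le_rfl, by linarith⟩)
    have hlim : Tendsto (fun t => b.coord j (G b x K θw (x + Tm b x (M + 1) t • dirv t))) (𝓝[(Ioo θ₁ θw)] θ₁)
        (𝓝 (b.coord j (G b x K θw V))) := by
      refine (((continuous_coord b j).comp (continuous_aff (G b x K θw))).tendsto _).comp ?_
      exact tendsto_const_nhds.add (((T.hca le_rfl).tendsto.mono_left nhdsWithin_le_nhds).smul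
        ((continuous_dirv.tendsto θ₁).mono_left nhdsWithin_le_nhds))
    refine ge_of_tendsto hlim (eventually_nhdsWithin_of_forall fun t ht => ?_)
    have htI := hI'I ht
    have h2 : 0 ≤ b.coord j (G b x K θw (x + Tm b x (K + 1) t • dirv t)) := by
      rw [← T.hgG (le_refl K) htI]; exact exit_mem (hI0 t htI) (hIg t htI) le_rfl j
    have h1 : 0 ≤ b.coord j (G b x K θw (x + (0 : ℝ) • dirv t)) := by
      rw [zero_smul, add_zero]; exact hφx.le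
    rw [aff_apply] at h1 h2 ⊢
    exact coord_between b j _ _ _ _ _ h1 h2
      (Tm_nonneg (hI0 t htI) (hIg t htI) (by omega))
      (Tm_le (hI0 t htI) (hIg t htI) (by omega) le_rfl)
  have hq : 0 ≤ b.coord j (G b x K θw (x + tw b x M K θ₁ θw θ • dirv θ)) := by
    obtain ⟨h1, h2⟩ := ss_mem hL0pos hLwpos hac T.hpi (hI'Icc hθ)
    rw [line_eq hL0pos hLwpos hac T.hpi x (hI'Icc hθ), aff_apply]
    have eW : G b x K θw W = G b x K θw V + (1 : ℝ) • (G b x K θw).linear (W - V) := by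
      rw [← aff_apply, one_smul, add_sub_cancel]
    have hb0 : 0 ≤ b.coord j (G b x K θw V + (0 : ℝ) • (G b x K θw).linear (W - V)) := by
      rw [zero_smul, add_zero]; exact hφV
    exact coord_between b j _ _ _ _ _ hb0 (eW ▸ hφW) h1 h2
  rw [← T.hgG (le_refl K) hθI, G_line, coord_aff] at hq
  have hz := hi.exit_jex (vel_ne_zero K θ)
  rw [exit_eq, G_line, coord_aff] at hz
  nlinarith

theorem Twin.cover (T : Twin b x M K θ₁ θw θ₂ δ) :
    ∀ θ ∈ Ioo θ₁ θw, ∃ k ≤ K, θ ∈ Sk b x M K θ₁ θw k := by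
  intro θ hθ
  set L0 := Tm b x (M + 1) θ₁ with hL0
  set Lw := Tm b x (K + 1) θw with hLw
  set V : ℂ := x + L0 • dirv θ₁ with hVdef
  set W : ℂ := x + Lw • dirv θw with hWdef
  have hac : θ₁ < θw := T.hw.1
  have hL0pos : 0 < L0 := T.L0_pos
  have hLwpos : 0 < Lw := T.Lw_pos
  have hMK := T.hMK
  have hI0 := T.inw
  have hIg := T.hI
  have hI'I := T.sub'
  have hI'Icc : Ioo θ₁ θw ⊆ Icc θ₁ θw := Ioo_subset_Icc_self
  have hθw := T.hw
  have h := T.below θ hθ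
  have hex' : ∃ k, tw b x M K θ₁ θw θ ≤ Tm b x (k + 1) θ := ⟨K, h⟩
  refine ⟨Nat.find hex', Nat.find_min' hex' h, hθ, ?_, Nat.find_spec hex'⟩
  rcases Nat.eq_zero_or_pos (Nat.find hex') with h0 | h0
  · rw [h0]; exact (tt_pos hL0pos hLwpos hac T.hpi (hI'Icc hθ)).le
  · obtain ⟨m, hm⟩ := Nat.exists_eq_add_one_of_ne_zero h0.ne'
    rw [hm]
    exact (not_le.1 (Nat.find_min hex' (by omega : m < _))).le

theorem Twin.mem_tri (T : Twin b x M K θ₁ θw θ₂ δ) {k : ℕ} (hk : k ≤ K) {θ : ℝ}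
    (hθ : θ ∈ Sk b x M K θ₁ θw k) :
    G b x k θw (x + tw b x M K θ₁ θw θ • dirv θ) ∈ tri b := by
  rw [← T.hgG hk (T.sub' hθ.1)]
  exact seg_mem (T.inw _ (T.sub' hθ.1)) (T.hI _ (T.sub' hθ.1)) hk hθ.2.1 hθ.2.2

theorem Twin.chord_pos (T : Twin b x M K θ₁ θw θ₂ δ) : 0 < ‖chord b x M K θ₁ θw‖ :=
  lt_of_le_of_lt (abs_nonneg _) (seg_big x T.L0_pos T.Lw_pos T.hw.1 T.hpi)

theorem Twin.norm_d (T : Twin b x M K θ₁ θw θ₂ δ) (k : ℕ) :
    ‖(G b x k θw).linear (‖chord b x M K θ₁ θw‖⁻¹ • chord b x M K θ₁ θw)‖ = 1 := by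
  rw [norm_G_linear, norm_smul, norm_inv, norm_norm, inv_mul_cancel₀ T.chord_pos.ne']

theorem Twin.qd (T : Twin b x M K θ₁ θw θ₂ δ) {θ : ℝ} (hθ : θ ∈ Icc θ₁ θw) :
    x + tw b x M K θ₁ θw θ • dirv θ = (x + Tm b x (M + 1) θ₁ • dirv θ₁) +
      (sw b x M K θ₁ θw θ * ‖chord b x M K θ₁ θw‖) •
        (‖chord b x M K θ₁ θw‖⁻¹ • chord b x M K θ₁ θw) := by
  rw [smul_smul, mul_assoc, mul_inv_cancel₀ T.chord_pos.ne', mul_one, chord]
  exact line_eq T.L0_pos T.Lw_pos T.hw.1 T.hpi x hθ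

variable (T : Twin b x M K θ₁ θw θ₂ δ)
include T

theorem Twin.const (E : Eig b f l) : ∀ k ≤ K, ∀ θ ∈ Sk b x M K θ₁ θw k,
    ∀ θ' ∈ Sk b x M K θ₁ θw k, Fk b x f l M K θ₁ θw k θ' = Fk b x f l M K θ₁ θw k θ := by
  intro k hk θ hθ θ' hθ'
  set d := ‖chord b x M K θ₁ θw‖⁻¹ • chord b x M K θ₁ θw with hd
  have e : G b x k θw (x + tw b x M K θ₁ θw θ' • dirv θ') =
      G b x k θw (x + tw b x M K θ₁ θw θ • dirv θ) + (sw b x M K θ₁ θw θ' * ‖chord b x M K θ₁ θw‖ - sw b x M K θ₁ θw θ * ‖chord b x M K θ₁ θw‖) • (G b x k θw).linear d := by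
    rw [← aff_apply, T.qd (Ioo_subset_Icc_self hθ.1), T.qd (Ioo_subset_Icc_self hθ'.1), hd, sub_smul]
    congr 1
    abel
  simp only [Fk]
  rw [e, E.move_any _ _ _ (T.norm_d k) (T.mem_tri hk hθ) (e ▸ T.mem_tri hk hθ'),
    mul_comm (Complex.exp _) (f _ _), mul_assoc, ← Complex.exp_add]
  congr 2
  push_cast; ring

theorem Twin.glue (E : Eig b f l) : ∀ k k', k ≤ K → k' ≤ K → k < k' → ∀ θ,
    θ ∈ Sk b x M K θ₁ θw k → θ ∈ Sk b x M K θ₁ θw k' →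
    Fk b x f l M K θ₁ θw k θ = Fk b x f l M K θ₁ θw k' θ := by
  intro k k' hk hk' hlt θ h h'
  set d := ‖chord b x M K θ₁ θw‖⁻¹ • chord b x M K θ₁ θw with hd
  have hθI := T.sub' h.1
  have h0 := T.inw θ hθI
  have hg := T.hI θ hθI
  have hle : Tm b x k' θ ≤ Tm b x (k + 1) θ := h'.2.1.trans h.2.2
  have hkk : k' = k + 1 := by
    by_contra hne
    have h1 := Tm_lt h0 hg (show k + 1 ≤ K by omega)
    have h2 := Tm_le h0 hg (show k + 1 + 1 ≤ k' by omega) (by omega)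
    linarith
  subst hkk
  have ht : tw b x M K θ₁ θw θ = Tm b x (k + 1) θ := le_antisymm h.2.2 h'.2.1
  have hi := inw_pos h0 hg k hk
  have hcz : b.coord (ext' b x k θ) (G b x k θw (x + tw b x M K θ₁ θw θ • dirv θ)) = 0 := by
    rw [← T.hgG hk hθI, ht, ← exit_eq]; exact hi.exit_jex (vel_ne_zero k θ)
  have egl : (G b x (k + 1) θw).linear d = rfl' b (ext' b x k θ) ((G b x k θw).linear d) := by
    rw [← T.hgG hk' hθI, ← T.hgG hk hθI, G_succ]; rfl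
  have eg : G b x (k + 1) θw (x + tw b x M K θ₁ θw θ • dirv θ) = G b x k θw (x + tw b x M K θ₁ θw θ • dirv θ) := by
    rw [← T.hgG hk' hθI, G_succ, AffineMap.comp_apply, T.hgG hk hθI]
    exact reflA_fix b _ _ hcz
  simp only [Fk]
  rw [eg, egl, E.bounce _ _ _ (T.norm_d k) (T.mem_tri hk h) hcz]

theorem Twin.closedS : ∀ k ≤ K,
    IsClosed {θ : Ioo θ₁ θw | (θ : ℝ) ∈ Sk b x M K θ₁ θw k} := by
  intro k hk
  have c1 : Continuous fun θ : (Ioo θ₁ θw) => Tm b x k θ := continuousOn_iff_continuous_restrict.1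
    fun θ hθ => (T.hTc (show k ≤ K + 1 by omega) (T.sub' hθ)).continuousWithinAt
  have c2 : Continuous fun θ : (Ioo θ₁ θw) => Tm b x (k + 1) θ := continuousOn_iff_continuous_restrict.1
    fun θ hθ => (T.hTc (show k + 1 ≤ K + 1 by omega) (T.sub' hθ)).continuousWithinAt
  have c3 : Continuous fun θ : (Ioo θ₁ θw) => tw b x M K θ₁ θw θ :=
    continuousOn_iff_continuous_restrict.1 ((tt_cont T.L0_pos T.Lw_pos T.hw.1 T.hpi).mono Ioo_subset_Icc_self)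
  have : {θ : (Ioo θ₁ θw) | (θ : ℝ) ∈ (Sk b x M K θ₁ θw k)} =
      {θ : (Ioo θ₁ θw) | Tm b x k θ ≤ tw b x M K θ₁ θw θ} ∩ {θ : (Ioo θ₁ θw) | tw b x M K θ₁ θw θ ≤ Tm b x (k + 1) θ} := by
    ext θ; exact ⟨fun h => ⟨h.2.1, h.2.2⟩, fun h => ⟨θ.2, h.1, h.2⟩⟩
  rw [this]
  exact (isClosed_le c1 c3).inter (isClosed_le c3 c2)

theorem Twin.value (E : Eig b f l) :
    ∃ C0, ∀ k ≤ K, ∀ θ ∈ Sk b x M K θ₁ θw k, Fk b x f l M K θ₁ θw k θ = C0 := by
  have hne : (θ₁ + θw) / 2 ∈ Ioo θ₁ θw := ⟨by linarith [T.hw.1], by linarith [T.hw.1]⟩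
  obtain ⟨k₀, hk₀, h₀⟩ := T.cover _ hne
  set C0 := Fk b x f l M K θ₁ θw k₀ ((θ₁ + θw) / 2)
  refine ⟨C0, ?_⟩
  let A : Set (Ioo θ₁ θw) := {θ | ∀ k ≤ K, (θ : ℝ) ∈ (Sk b x M K θ₁ θw k) → Fk b x f l M K θ₁ θw k θ = C0}
  have hsame : ∀ θ : (Ioo θ₁ θw), ∀ k k', k ≤ K → k' ≤ K → (θ : ℝ) ∈ (Sk b x M K θ₁ θw k) → (θ : ℝ) ∈ Sk b x M K θ₁ θw k' →
      Fk b x f l M K θ₁ θw k θ = Fk b x f l M K θ₁ θw k' θ := by
    intro θ k k' hk hk' h h'
    rcases lt_trichotomy k k' with e | e | e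
    · exact T.glue E k k' hk hk' e θ h h'
    · rw [e]
    · exact (T.glue E k' k hk' hk e θ h' h).symm
  have hA : A = ⋃ k : Fin (K + 1), {θ : (Ioo θ₁ θw) | (θ : ℝ) ∈ (Sk b x M K θ₁ θw k) ∧ Fk b x f l M K θ₁ θw k θ = C0} := by
    ext θ
    simp only [A, Set.mem_ofPred_eq, Set.mem_iUnion]
    constructor
    · intro h
      obtain ⟨k, hk, hθ⟩ := T.cover θ θ.2
      exact ⟨⟨k, by omega⟩, hθ, h k hk hθ⟩
    · rintro ⟨k, hS, hFk'⟩ k' hk' h'
      rw [← hFk']; exact hsame θ k' k hk' (by omega) h' hS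
  have hAc : Aᶜ = ⋃ k : Fin (K + 1), {θ : (Ioo θ₁ θw) | (θ : ℝ) ∈ (Sk b x M K θ₁ θw k) ∧ Fk b x f l M K θ₁ θw k θ ≠ C0} := by
    ext θ
    simp only [A, Set.mem_compl_iff, Set.mem_ofPred_eq, Set.mem_iUnion, not_forall]
    constructor
    · rintro ⟨k, hk, hS, hne⟩; exact ⟨⟨k, by omega⟩, hS, hne⟩
    · rintro ⟨k, hS, hne⟩; exact ⟨k, by omega, hS, hne⟩
  have hpart : ∀ (k : ℕ), k ≤ K → ∀ P : ℂ → Prop,
      IsClosed {θ : (Ioo θ₁ θw) | (θ : ℝ) ∈ (Sk b x M K θ₁ θw k) ∧ P (Fk b x f l M K θ₁ θw k θ)} := by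
    intro k hk P
    by_cases hP : ∃ θ : (Ioo θ₁ θw), (θ : ℝ) ∈ (Sk b x M K θ₁ θw k) ∧ P (Fk b x f l M K θ₁ θw k θ)
    · obtain ⟨θ₂, h₂, hP₂⟩ := hP
      convert T.closedS k hk using 1
      ext θ
      exact ⟨fun h => h.1, fun h => ⟨h, by rw [T.const E k hk θ₂ h₂ θ h]; exact hP₂⟩⟩
    · convert isClosed_empty (X := (Ioo θ₁ θw))
      ext θ
      exact ⟨fun h => hP ⟨θ, h⟩, fun h => h.elim⟩
  have hclA : IsClopen A := by
    refine ⟨?_, isClosed_compl_iff.1 ?_⟩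
    · rw [hA]; exact isClosed_iUnion_of_finite fun k => hpart k (by omega) (· = C0)
    · rw [hAc]; exact isClosed_iUnion_of_finite fun k => hpart k (by omega) (· ≠ C0)
  haveI : PreconnectedSpace (Ioo θ₁ θw) := Subtype.preconnectedSpace isPreconnected_Ioo
  have hAne : A.Nonempty := ⟨⟨_, hne⟩, fun k hk h => hsame ⟨_, hne⟩ k k₀ hk hk₀ h h₀⟩
  have hAu := hclA.eq_univ hAne
  intro k hk θ hθ
  have : (⟨θ, hθ.1⟩ : (Ioo θ₁ θw)) ∈ A := by rw [hAu]; exact Set.mem_univ _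
  exact this k hk hθ

theorem Twin.ends (E : Eig b f l)
    (hV : ∀ i, ∀ u v : ℂ, ‖u‖ = 1 → ‖v‖ = 1 → f (b i) u = f (b i) v)
    {c : ℂ} (hc : ∀ θ, f x (dirv θ) = c) {C0 : ℂ}
    (hC0 : ∀ k ≤ K, ∀ θ ∈ Sk b x M K θ₁ θw k, Fk b x f l M K θ₁ θw k θ = C0) :
    ∀ e ∈ Icc θ₁ θw, ∀ k ≤ K, e ∈ closure (Sk b x M K θ₁ θw k) →
      ∀ i, G b x k θw (x + tw b x M K θ₁ θw e • dirv e) = b i → C0 =
        Complex.exp ((l * (tw b x M K θ₁ θw e - sw b x M K θ₁ θw e * ‖chord b x M K θ₁ θw‖) : ℝ) *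
          Complex.I) * c := by
  intro e he k hk hcl i hi
  have hL0pos := T.L0_pos
  have hLwpos := T.Lw_pos
  have hac : θ₁ < θw := T.hw.1
  set d := ‖chord b x M K θ₁ θw‖⁻¹ • chord b x M K θ₁ θw with hd
  haveI : (𝓝[(Sk b x M K θ₁ θw k)] e).NeBot := mem_closure_iff_nhdsWithin_neBot.1 hcl
  have hsub : (Sk b x M K θ₁ θw k) ⊆ Icc θ₁ θw := fun θ h => Ioo_subset_Icc_self h.1
  have ht : Tendsto (tw b x M K θ₁ θw) (𝓝[(Sk b x M K θ₁ θw k)] e) (𝓝 (tw b x M K θ₁ θw e)) := (((tt_cont hL0pos hLwpos hac T.hpi) e he).mono hsub).tendsto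
  have hs : Tendsto (sw b x M K θ₁ θw) (𝓝[(Sk b x M K θ₁ θw k)] e) (𝓝 (sw b x M K θ₁ θw e)) := ((ss_cont hL0pos hLwpos hac T.hpi e he).mono hsub).tendsto
  have hdv : Tendsto dirv (𝓝[(Sk b x M K θ₁ θw k)] e) (𝓝 (dirv e)) :=
    (continuous_dirv.tendsto e).mono_left nhdsWithin_le_nhds
  have hq : Tendsto (fun θ => G b x k θw (x + tw b x M K θ₁ θw θ • dirv θ)) (𝓝[(Sk b x M K θ₁ θw k)] e)
      (𝓝 (G b x k θw (x + tw b x M K θ₁ θw e • dirv e))) :=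
    ((continuous_aff (G b x k θw)).tendsto _).comp (tendsto_const_nhds.add (ht.smul hdv))
  have hem : G b x k θw (x + tw b x M K θ₁ θw e • dirv e) ∈ tri b := by rw [hi]; exact vertex_mem i
  have hex : ∀ a : ℝ → ℝ, Tendsto a (𝓝[(Sk b x M K θ₁ θw k)] e) (𝓝 (a e)) →
      Tendsto (fun θ => Complex.exp ((a θ : ℝ) * Complex.I)) (𝓝[(Sk b x M K θ₁ θw k)] e)
        (𝓝 (Complex.exp ((a e : ℝ) * Complex.I))) := fun a ha =>
    (continuous_dirv.tendsto _).comp ha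
  have h1 : Fk b x f l M K θ₁ θw k e = C0 := by
    refine tendsto_nhds_unique (f := fun θ => Fk b x f l M K θ₁ θw k θ)
      (l := 𝓝[Sk b x M K θ₁ θw k] e) ?_ (tendsto_const_nhds.congr'
      (eventually_nhdsWithin_of_forall fun θ hθ => (hC0 k hk θ hθ).symm))
    simp only [Fk]
    exact (cont_at (d := fun _ => (G b x k θw).linear d) E hq tendsto_const_nhds
      (fun θ hθ => T.mem_tri hk hθ) (fun _ => T.norm_d k) hem).mul
      (hex (fun θ => -(l * (sw b x M K θ₁ θw θ * ‖chord b x M K θ₁ θw‖))) ((hs.mul_const ‖chord b x M K θ₁ θw‖).const_mul l).neg)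
  have h2 : f (G b x k θw (x + tw b x M K θ₁ θw e • dirv e)) ((G b x k θw).linear (dirv e)) =
      Complex.exp ((l * tw b x M K θ₁ θw e : ℝ) * Complex.I) * c := by
    refine tendsto_nhds_unique (cont_at (d := fun θ => (G b x k θw).linear (dirv θ)) E hq
      (((G b x k θw).linear.continuous_of_finiteDimensional.tendsto _).comp hdv)
      (fun θ hθ => T.mem_tri hk hθ) (fun θ => by rw [norm_G_linear, norm_dirv]) hem) ?_
    refine ((hex (fun θ => l * tw b x M K θ₁ θw θ) (ht.const_mul l)).mul_const c).congr'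
      (eventually_nhdsWithin_of_forall fun θ hθ => ?_)
    have := E.along (T.inw θ (T.sub' hθ.1)) (T.hI θ (T.sub' hθ.1)) hk
      (by rw [T.hgG hk (T.sub' hθ.1)]; exact T.mem_tri hk hθ)
    rw [T.hgG hk (T.sub' hθ.1), hc, vel, T.hgG hk (T.sub' hθ.1)] at this
    exact this.symm
  simp only [Fk] at h1
  rw [hi, hV i _ ((G b x k θw).linear (dirv e)) (T.norm_d k) (by rw [norm_G_linear, norm_dirv]), ← hi,
    h2] at h1
  rw [← h1, mul_right_comm, ← Complex.exp_add]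
  congr 2
  push_cast; ring

theorem Twin.clos : ∀ e ∈ Icc θ₁ θw, ∃ k ≤ K, e ∈ closure (Sk b x M K θ₁ θw k) := by
  intro e he
  have hsub : (Ioo θ₁ θw) ⊆ ⋃ k : Fin (K + 1), Sk b x M K θ₁ θw k := fun θ hθ => by
    obtain ⟨k, hk, h⟩ := T.cover θ hθ
    exact Set.mem_iUnion.2 ⟨⟨k, by omega⟩, h⟩
  have := closure_mono hsub (by rw [closure_Ioo T.hw.1.ne]; exact he)
  rw [closure_iUnion_of_finite, Set.mem_iUnion] at this
  obtain ⟨k, hk⟩ := this
  exact ⟨k, by omega, hk⟩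

theorem Twin.far : ∀ k ≤ K, θw ∈ closure (Sk b x M K θ₁ θw k) →
    ∃ i, G b x k θw (x + tw b x M K θ₁ θw θw • dirv θw) = b i := by
  intro k hk hcl
  set L0 := Tm b x (M + 1) θ₁ with hL0
  set Lw := Tm b x (K + 1) θw with hLw
  set V : ℂ := x + L0 • dirv θ₁ with hVdef
  set W : ℂ := x + Lw • dirv θw with hWdef
  have hac : θ₁ < θw := T.hw.1
  have hL0pos : 0 < L0 := T.L0_pos
  have hLwpos : 0 < Lw := T.Lw_pos
  have hMK := T.hMK
  have hI0 := T.inw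
  have hIg := T.hI
  have hI'I := T.sub'
  have hI'Icc : Ioo θ₁ θw ⊆ Icc θ₁ θw := Ioo_subset_Icc_self
  have hθw := T.hw
  have hw1 : θw ∈ Icc θ₁ θw := ⟨hac.le, le_rfl⟩
  have htw : tw b x M K θ₁ θw θw = Lw := tt_right hL0pos hac T.hpi
  have hkK : k = K := by
    by_contra hne
    haveI : (𝓝[(Sk b x M K θ₁ θw k)] θw).NeBot := mem_closure_iff_nhdsWithin_neBot.1 hcl
    have h1 : tw b x M K θ₁ θw θw ≤ Tm b x (k + 1) θw := le_of_tendsto_of_tendsto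
      (((tt_cont hL0pos hLwpos hac T.hpi) θw hw1).mono (Sk_subset (b := b) (x := x) (M := M) (K := K) (k := k))).tendsto
      ((T.hTc (show k + 1 ≤ K + 1 by omega) hθw).tendsto.mono_left nhdsWithin_le_nhds)
      (eventually_nhdsWithin_of_forall fun θ (hθ : θ ∈ Sk b x M K θ₁ θw k) => hθ.2.2)
    rw [htw] at h1
    have h2 := Tm_lt (hI0 θw hθw) (hIg θw hθw) (le_refl K)
    have h3 := Tm_le (hI0 θw hθw) (hIg θw hθw) (show k + 1 ≤ K by omega) (by omega)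
    linarith
  subst hkK
  obtain ⟨i, hi⟩ := (inw_pos (hI0 θw hθw) (hIg θw hθw) k le_rfl).exit_vertex
    (vel_ne_zero k θw) T.hsK
  rw [exit_eq] at hi
  exact ⟨i, by rw [htw]; exact hi⟩

theorem Twin.near : ∀ k ≤ K, θ₁ ∈ closure (Sk b x M K θ₁ θw k) →
    ∃ i, G b x k θw (x + tw b x M K θ₁ θw θ₁ • dirv θ₁) = b i := by
  intro k hk hcl
  set L0 := Tm b x (M + 1) θ₁ with hL0
  set Lw := Tm b x (K + 1) θw with hLw
  set V : ℂ := x + L0 • dirv θ₁ with hVdef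
  set W : ℂ := x + Lw • dirv θw with hWdef
  have hac : θ₁ < θw := T.hw.1
  have hL0pos : 0 < L0 := T.L0_pos
  have hLwpos : 0 < Lw := T.Lw_pos
  have hMK := T.hMK
  have hI0 := T.inw
  have hIg := T.hI
  have hI'I := T.sub'
  have hI'Icc : Ioo θ₁ θw ⊆ Icc θ₁ θw := Ioo_subset_Icc_self
  have hθw := T.hw
  have hv1 : θ₁ ∈ Icc θ₁ θw := ⟨le_rfl, hac.le⟩
  have ht1 : tw b x M K θ₁ θw θ₁ = L0 := tt_left hLwpos hac T.hpi
  have hin₁ : Inw b x (dirv θ₁) := (T.hU _ T.mem₁).1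
  have hgM : Good b x M θ₁ := (T.hU _ T.mem₁).2
  have hpc : IsPreconnected (Ioo θ₁ θ₂) := isPreconnected_Ioo
  haveI : (𝓝[(Sk b x M K θ₁ θw k)] θ₁).NeBot := mem_closure_iff_nhdsWithin_neBot.1 hcl
  have htlim : Tendsto (tw b x M K θ₁ θw) (𝓝[(Sk b x M K θ₁ θw k)] θ₁) (𝓝 L0) := by
    have := (((tt_cont hL0pos hLwpos hac T.hpi) θ₁ hv1).mono (Sk_subset (b := b) (x := x) (M := M) (K := K) (k := k))).tendsto
    rwa [tt_left hLwpos hac T.hpi] at this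
  have hML : Tendsto (Tm b x (M + 1)) (𝓝[(Sk b x M K θ₁ θw k)] θ₁) (𝓝 L0) :=
    (T.hca le_rfl).tendsto.mono_left nhdsWithin_le_nhds
  have hkM : M ≤ k := by
    by_contra! hlt
    have h1 : L0 ≤ Tm b x (k + 1) θ₁ := le_of_tendsto_of_tendsto htlim
      ((T.hca (show k + 1 ≤ M + 1 by omega)).tendsto.mono_left nhdsWithin_le_nhds)
      (eventually_nhdsWithin_of_forall fun θ hθ => hθ.2.2)
    have h2 := Tm_lt hin₁ hgM (le_refl M)
    have h3 := Tm_le hin₁ hgM (show k + 1 ≤ M by omega) (by omega)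
    linarith [hL0]
  obtain ⟨iV, hiV⟩ := (inw_pos hin₁ hgM M le_rfl).exit_vertex (vel_ne_zero M θ₁) T.hsM
  rw [exit_eq] at hiV
  rw [← T.hgM' (le_refl M), ← hL0, ← hVdef] at hiV
  -- the exit sides contain the vertex
  have hex0 : ∀ m, M ≤ m → m < k → b.coord (ext' b x m θw) (G b x m θw V) = 0 := by
    intro m hm1 hm2
    have hpw : Tendsto (fun θ => Tm b x (m + 1) θ) (𝓝[(Sk b x M K θ₁ θw k)] θ₁) (𝓝 L0) :=
      tendsto_of_tendsto_of_tendsto_of_le_of_le' hML htlim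
        (eventually_nhdsWithin_of_forall fun θ hθ =>
          Tm_le (hI0 θ (hI'I hθ.1)) (hIg θ (hI'I hθ.1)) (by omega) (by omega))
        (eventually_nhdsWithin_of_forall fun θ hθ =>
          (Tm_le (hI0 θ (hI'I hθ.1)) (hIg θ (hI'I hθ.1)) (show m + 1 ≤ k by omega)
            (by omega)).trans hθ.2.1)
    have hlim : Tendsto (fun θ => b.coord (ext' b x m θw) (G b x m θw (x + Tm b x (m + 1) θ • dirv θ)))
        (𝓝[(Sk b x M K θ₁ θw k)] θ₁) (𝓝 (b.coord (ext' b x m θw) (G b x m θw V))) :=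
      (((continuous_coord b _).comp (continuous_aff (G b x m θw))).tendsto _).comp
        (tendsto_const_nhds.add (hpw.smul
          ((continuous_dirv.tendsto θ₁).mono_left nhdsWithin_le_nhds)))
    refine tendsto_nhds_unique hlim (tendsto_const_nhds.congr'
      (eventually_nhdsWithin_of_forall fun θ hθ => ?_))
    have hθI := hI'I hθ.1
    have hr := reg hpc hI0 m fun t ht => (hIg t ht).mono (by omega : m ≤ K)
    have hjc : ext' b x m θ = ext' b x m θw :=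
      hr.jex_const hpc (fun t ht => hIg t ht m (by omega)) θ hθI θw hθw
    rw [← T.hgG (show m ≤ K by omega) hθI]
    beta_reduce
    rw [← exit_eq, ← hjc]
    exact ((inw_pos (hI0 θ hθI) (hIg θ hθI) m (by omega)).exit_jex (vel_ne_zero m θ)).symm
  have hgsucc : ∀ m, M ≤ m → m < k → G b x (m + 1) θw V = G b x m θw V := by
    intro m hm1 hm2
    show G b x (m + 1) θw V = _
    rw [G_succ, AffineMap.comp_apply]
    exact reflA_fix b _ _ (hex0 m hm1 hm2)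
  have hvert : ∃ i, G b x k θw V = b i := by
    rcases Nat.lt_or_ge M k with hlt | hge
    · obtain ⟨m, rfl⟩ := Nat.exists_eq_add_one_of_ne_zero (by omega : k ≠ 0)
      rw [hgsucc m (by omega) (by omega)]
      rcases Nat.lt_or_ge M m with hlt' | hge'
      · obtain ⟨m', rfl⟩ := Nat.exists_eq_add_one_of_ne_zero (by omega : m ≠ 0)
        refine eq_vertex b (i := ext' b x m' θw) (j := ext' b x (m' + 1) θw) ?_ ?_
          (hex0 (m' + 1) (by omega) (by omega))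
        · intro he
          have hi := inw_pos (hI0 θw hθw) (hIg θw hθw) (m' + 1) (by omega)
          have h1 := (hi.jex_pos (vel_ne_zero _ θw)).1
          have hi' := inw_pos (hI0 θw hθw) (hIg θw hθw) m' (by omega)
          have h2 : b.coord (ext' b x m' θw) (pos b x (m' + 1) θw) = 0 := by
            rw [pos_succ hi', ← exit_eq]; exact hi'.exit_jex (vel_ne_zero m' θw)
          rw [he] at h2
          exact h1.ne' h2
        · rw [hgsucc m' (by omega) (by omega)]; exact hex0 m' (by omega) (by omega)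
      · have : m = M := by omega
        subst this; exact ⟨iV, hiV⟩
    · have : k = M := by omega
      subst this; exact ⟨iV, hiV⟩
  rw [ht1]
  exact hvert

end Twin

/-- Two consecutive singular directions from a source: the value at the source vanishes. -/
theorem Eig.vanish (E : Eig b f l) (hl : l ≠ 0)
    (hV : ∀ i, ∀ u v : ℂ, ‖u‖ = 1 → ‖v‖ = 1 → f (b i) u = f (b i) v)
    {c : ℂ} (hc : ∀ θ, f x (dirv θ) = c) {θ₀ θ₃ : ℝ} (h03 : θ₀ < θ₃)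
    (hinw : ∀ θ ∈ Icc θ₀ θ₃, Inw b x (dirv θ)) : c = 0 := by
  by_contra hc0
  -- the first singular direction
  set c₂ : ℝ := min θ₃ (θ₀ + 1)
  have hc₂ : θ₀ < c₂ := lt_min h03 (by linarith)
  obtain ⟨θ₁, hθ₁, M, hgM, hsM⟩ := exists_singular (b := b) (x := x) (a := θ₀) (c := c₂) hc₂
    (by linarith [min_le_right θ₃ (θ₀ + 1), Real.pi_gt_three])
    fun θ hθ => hinw θ ⟨hθ.1, hθ.2.trans (min_le_left _ _)⟩
  have hin₁ : Inw b x (dirv θ₁) := hinw θ₁ ⟨hθ₁.1, hθ₁.2.trans (min_le_left _ _)⟩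
  obtain ⟨δ, hδ, hU⟩ := good_nhds hin₁ M hgM
  set U := Ioo (θ₁ - δ) (θ₁ + δ)
  have h1U : θ₁ ∈ U := ⟨by linarith, by linarith⟩
  have hU0 : ∀ θ ∈ U, Inw b x (dirv θ) := fun θ h => (hU θ h).1
  have hUg : ∀ θ ∈ U, Good b x M θ := fun θ h => (hU θ h).2
  set L0 := Tm b x (M + 1) θ₁ with hL0
  have hL0pos : 0 < L0 := lt_of_le_of_lt (Tm_nonneg hin₁ hgM (by omega : M ≤ M + 1))
    (Tm_lt hin₁ hgM le_rfl)
  set ε : ℝ := Real.pi / (4 * |l|) with hε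
  have hεpos : 0 < ε := div_pos Real.pi_pos (by positivity)
  have hcU : ContinuousOn (Tm b x (M + 1)) U := Tm_cont isPreconnected_Ioo hU0 hUg (M + 1) le_rfl
  have hca : ContinuousAt (Tm b x (M + 1)) θ₁ := hcU.continuousAt (isOpen_Ioo.mem_nhds h1U)
  obtain ⟨η₁, hη₁, hη₁'⟩ := Metric.continuousAt_iff.1 hca ε hεpos
  set η : ℝ := min (min (δ / 2) η₁) (min (ε / L0) 1) with hη
  have hηpos : 0 < η := lt_min (lt_min (by linarith) hη₁) (lt_min (div_pos hεpos hL0pos) one_pos)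
  have hηδ : η ≤ δ / 2 := (min_le_left _ _).trans (min_le_left _ _)
  have hηη₁ : η ≤ η₁ := (min_le_left _ _).trans (min_le_right _ _)
  have hηε : η ≤ ε / L0 := (min_le_right _ _).trans (min_le_left _ _)
  have hη1 : η ≤ 1 := (min_le_right _ _).trans (min_le_right _ _)
  set I := Ioo θ₁ (θ₁ + η)
  have hIU : Icc θ₁ (θ₁ + η) ⊆ U := fun θ h => ⟨by linarith [h.1], by linarith [h.2]⟩
  -- the first split of the fan next to it
  have hex : ∃ K, ∃ θ ∈ I, ¬ Smp b x K θ := by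
    obtain ⟨θ, hθ, K, -, hs⟩ := exists_singular (b := b) (x := x) (a := θ₁ + η / 4)
      (c := θ₁ + η / 2) (by linarith) (by linarith [Real.pi_gt_three])
      fun θ hθ => hU0 θ (hIU ⟨by linarith [hθ.1], by linarith [hθ.2]⟩)
    exact ⟨K, θ, ⟨by linarith [hθ.1], by linarith [hθ.2]⟩, hs⟩
  classical
  set K := Nat.find hex
  obtain ⟨θw, hθw, hsK⟩ := Nat.find_spec hex
  have hIg : ∀ θ ∈ I, Good b x K θ := fun θ hθ k hk => by
    by_contra hn
    exact Nat.find_min hex hk ⟨θ, hθ, hn⟩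
  have hI0 : ∀ θ ∈ I, Inw b x (dirv θ) := fun θ hθ => hU0 θ (hIU (Ioo_subset_Icc_self hθ))
  have hMK : M ≤ K := by
    by_contra! hlt
    exact hsK (hUg θw (hIU (Ioo_subset_Icc_self hθw)) K hlt)
  set Lw := Tm b x (K + 1) θw with hLw
  have hwM : |Tm b x (M + 1) θw - L0| < ε := by
    rw [← Real.dist_eq]
    refine hη₁' ?_
    rw [Real.dist_eq, abs_lt]
    constructor <;> linarith [hθw.1, hθw.2]
  have hLwM : Tm b x (M + 1) θw ≤ Lw :=
    Tm_le (hI0 θw hθw) (hIg θw hθw) (by omega) le_rfl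
  have hLwpos : 0 < Lw := lt_of_le_of_lt (Tm_nonneg (hI0 θw hθw) (hIg θw hθw) (by omega : K ≤ K + 1))
    (Tm_lt (hI0 θw hθw) (hIg θw hθw) le_rfl)
  have T : Twin b x M K θ₁ θw (θ₁ + η) δ :=
    ⟨hδ, hU, by linarith, hθw, by linarith [hθw.2, Real.pi_gt_three], hIg, hsM, hsK, hMK⟩
  obtain ⟨C0, hC0⟩ := T.value E
  have hac : θ₁ < θw := hθw.1
  obtain ⟨k, hk, hcl⟩ := T.clos θw ⟨hac.le, le_rfl⟩
  obtain ⟨i, hi⟩ := T.far k hk hcl
  have hW' := T.ends E hV hc hC0 θw ⟨hac.le, le_rfl⟩ k hk hcl i hi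
  obtain ⟨k, hk, hcl⟩ := T.clos θ₁ ⟨le_rfl, hac.le⟩
  obtain ⟨i, hi⟩ := T.near k hk hcl
  have hV' := T.ends E hV hc hC0 θ₁ ⟨le_rfl, hac.le⟩ k hk hcl i hi
  simp only [tw, sw] at hW' hV'
  rw [tt_right hL0pos hac T.hpi, ss_right hL0pos hac T.hpi, one_mul, ← hLw] at hW'
  rw [tt_left hLwpos hac T.hpi, ss_left, zero_mul, sub_zero, ← hL0] at hV'
  have hℓbig : |Lw - L0| < ‖chord b x M K θ₁ θw‖ := seg_big x hL0pos hLwpos hac T.hpi
  have hℓsmall : ‖chord b x M K θ₁ θw‖ ≤ |Lw - L0| + L0 * (θw - θ₁) := seg_small x hL0pos hac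
  generalize ‖chord b x M K θ₁ θw‖ = ℓ at *
  -- the strict triangle inequality
  rw [hW'] at hV'
  have heq := mul_right_cancel₀ hc0 hV'
  have hp1 : 0 < L0 + ℓ - Lw := by linarith [(abs_lt.1 hℓbig).2]
  have hp2 : L0 + ℓ - Lw < 4 * ε := by
    have h1 := (abs_lt.1 hwM).1
    have h2 : L0 * (θw - θ₁) ≤ ε := by
      calc L0 * (θw - θ₁) ≤ L0 * (ε / L0) := mul_le_mul_of_nonneg_left (by linarith [hθw.2]) hL0pos.le
        _ = ε := by field_simp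
    rcases abs_cases (Lw - L0) with ⟨e, -⟩ | ⟨e, -⟩ <;> rw [e] at hℓsmall <;> linarith
  have hlt : |l * (Lw - ℓ) - l * L0| < 2 * Real.pi := by
    rw [← mul_sub, abs_mul, show Lw - ℓ - L0 = -(L0 + ℓ - Lw) by ring, abs_neg, abs_of_pos hp1]
    calc |l| * (L0 + ℓ - Lw) < |l| * (4 * ε) := mul_lt_mul_of_pos_left hp2 (by positivity)
      _ = Real.pi := by rw [hε]; field_simp
      _ ≤ _ := by linarith [Real.pi_pos]
  have := exp_lI_eq heq hlt
  have : l * (Lw - ℓ - L0) = 0 := by linarith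
  rcases mul_eq_zero.1 this with h | h
  · exact hl h
  · linarith

end Vale.Agent.P099
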