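import Vale.Agent.P099.Orbit

/-!
P099: continuous eigenfunctions along orbits; vertices.
-/

open scoped ComplexConjugate
open Complex Filter Topology Set

noncomputable section

namespace Vale.Agent.P099

variable (b : AffineBasis (Fin 3) ℝ ℂ)

/-- The closed triangle. -/
def tri : Set ℂ := {y | ∀ i, 0 ≤ b.coord i y}

/-- A continuous eigenfunction of the billiard flow. -/
structure Eig (f : ℂ → ℂ → ℂ) (l : ℝ) : Prop where
  cont : ContinuousOn (fun q : ℂ × ℂ => f q.1 q.2) (tri b ×ˢ Metric.sphere (0 : ℂ) 1)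
  move : ∀ y u : ℂ, ∀ t : ℝ, ‖u‖ = 1 → 0 ≤ t → y ∈ tri b → y + t • u ∈ tri b →
    f (y + t • u) u = Complex.exp ((l * t : ℝ) * Complex.I) * f y u
  bounce : ∀ i, ∀ y u : ℂ, ‖u‖ = 1 → y ∈ tri b → b.coord i y = 0 → f y (rfl' b i u) = f y u

variable {b} {f : ℂ → ℂ → ℂ} {l : ℝ}

theorem isClosed_tri : IsClosed (tri b) := by
  have : tri b = ⋂ i, {y | 0 ≤ b.coord i y} := by ext; simp [tri]
  rw [this]
  exact isClosed_iInter fun i => isClosed_le continuous_const (continuous_coord b i)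

theorem Eig.move_any (E : Eig b f l) (y u : ℂ) (t : ℝ) (hu : ‖u‖ = 1) (hy : y ∈ tri b)
    (hy' : y + t • u ∈ tri b) : f (y + t • u) u = Complex.exp ((l * t : ℝ) * Complex.I) * f y u := by
  rcases le_total 0 t with h | h
  · exact E.move y u t hu h hy hy'
  · have hb : y + t • u + (-t) • u = y := by rw [add_assoc, ← add_smul, add_neg_cancel, zero_smul, add_zero]
    have := E.move (y + t • u) u (-t) hu (neg_nonneg.2 h) hy' (by rw [hb]; exact hy)
    rw [hb] at this
    rw [this, ← mul_assoc, ← Complex.exp_add,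
      show ((l * t : ℝ) : ℂ) * Complex.I + ((l * -t : ℝ) : ℂ) * Complex.I = 0 by push_cast; ring,
      Complex.exp_zero, one_mul]

theorem pos_mem {x : ℂ} {n : ℕ} {θ : ℝ} (h0 : Inw b x (dirv θ)) (h : Good b x n θ) {k : ℕ}
    (hk : k ≤ n) : pos b x k θ ∈ tri b := fun i => (inw_pos h0 h k hk i).1

theorem exit_mem {x : ℂ} {n : ℕ} {θ : ℝ} (h0 : Inw b x (dirv θ)) (h : Good b x n θ) {k : ℕ}
    (hk : k ≤ n) : G b x k θ (x + Tm b x (k + 1) θ • dirv θ) ∈ tri b := by
  rw [← exit_eq]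
  exact fun i => (inw_pos h0 h k hk).exit_nonneg (vel_ne_zero k θ) i

theorem seg_mem {x : ℂ} {n : ℕ} {θ : ℝ} (h0 : Inw b x (dirv θ)) (h : Good b x n θ) {k : ℕ}
    (hk : k ≤ n) {t : ℝ} (h1 : Tm b x k θ ≤ t) (h2 : t ≤ Tm b x (k + 1) θ) :
    G b x k θ (x + t • dirv θ) ∈ tri b := fun i => by
  have e1 := pos_mem h0 h hk i
  have e2 := exit_mem h0 h hk i
  rw [pos] at e1
  rw [aff_apply] at e1 e2 ⊢
  exact coord_between b i _ _ _ _ _ e1 e2 h1 h2

theorem Eig.chain (E : Eig b f l) {x : ℂ} {n : ℕ} {θ : ℝ} (h0 : Inw b x (dirv θ))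
    (h : Good b x n θ) : ∀ k ≤ n,
    f (pos b x k θ) (vel b x k θ) =
      Complex.exp ((l * Tm b x k θ : ℝ) * Complex.I) * f x (dirv θ) := by
  intro k
  induction k with
  | zero => intro _; rw [pos_zero, vel_zero]; simp [Tm, orb]
  | succ k ih =>
    intro hk
    have hi := inw_pos h0 h k (by omega)
    have hm : pos b x (k + 1) θ ∈ tri b := pos_mem h0 h hk
    have hz : b.coord (ext' b x k θ) (pos b x (k + 1) θ) = 0 := by
      rw [pos_succ hi, ← exit_eq]; exact hi.exit_jex (vel_ne_zero k θ)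
    have hp : pos b x (k + 1) θ =
        pos b x k θ + tau b (pos b x k θ) (vel b x k θ) • vel b x k θ := by
      rw [pos_succ hi, exit_eq]
    rw [vel_succ, E.bounce _ _ _ (norm_vel k θ) hm hz, hp,
      E.move_any _ _ _ (norm_vel k θ) (pos_mem h0 h (by omega)) (by rw [← hp]; exact hm),
      ih (by omega), ← mul_assoc, ← Complex.exp_add, Tm_succ]
    congr 2
    push_cast
    ring

/-- The eigen relation at every point of a corridor. -/
theorem Eig.along (E : Eig b f l) {x : ℂ} {n : ℕ} {θ : ℝ} (h0 : Inw b x (dirv θ))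
    (h : Good b x n θ) {k : ℕ} (hk : k ≤ n) {t : ℝ}
    (ht : G b x k θ (x + t • dirv θ) ∈ tri b) :
    f (G b x k θ (x + t • dirv θ)) (vel b x k θ) =
      Complex.exp ((l * t : ℝ) * Complex.I) * f x (dirv θ) := by
  rw [G_line] at ht ⊢
  rw [E.move_any _ _ _ (norm_vel k θ) (pos_mem h0 h hk) ht, E.chain h0 h k hk, ← mul_assoc,
    ← Complex.exp_add]
  congr 2
  push_cast
  ring

theorem vertex_mem (i : Fin 3) : (b i : ℂ) ∈ tri b := fun j => by
  rw [coord_basis]; split_ifs <;> norm_num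

theorem coord_vertex_ne {i j : Fin 3} (h : j ≠ i) : b.coord j (b i) = 0 := by
  rw [coord_basis, if_neg h]

theorem cont_at {g : ℝ → ℂ} {d : ℝ → ℂ} {s : Set ℝ} {e : ℝ} (E : Eig b f l)
    (hg : Tendsto g (𝓝[s] e) (𝓝 (g e))) (hd : Tendsto d (𝓝[s] e) (𝓝 (d e)))
    (hgs : ∀ t ∈ s, g t ∈ tri b) (hds : ∀ t, ‖d t‖ = 1) (he : g e ∈ tri b) :
    Tendsto (fun t => f (g t) (d t)) (𝓝[s] e) (𝓝 (f (g e) (d e))) := by
  have hm : ((g e, d e) : ℂ × ℂ) ∈ tri b ×ˢ Metric.sphere (0 : ℂ) 1 :=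
    ⟨he, mem_sphere_zero_iff_norm.2 (hds e)⟩
  refine (E.cont _ hm).tendsto.comp (tendsto_nhdsWithin_iff.2 ⟨hg.prodMk_nhds hd, ?_⟩)
  exact eventually_nhdsWithin_of_forall fun t ht =>
    ⟨hgs t ht, mem_sphere_zero_iff_norm.2 (hds t)⟩

/-- Near a direction of a singular orbit the value is carried by a vertex. -/
theorem Eig.to_vertex (E : Eig b f l) {x : ℂ} {n : ℕ} {θ : ℝ} (h0 : Inw b x (dirv θ))
    (h : Good b x n θ) (hs : ¬ Smp b x n θ) :
    ∃ k, G b x n θ (x + Tm b x (n + 1) θ • dirv θ) = b k ∧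
      f (b k) (vel b x n θ) =
        Complex.exp ((l * Tm b x (n + 1) θ : ℝ) * Complex.I) * f x (dirv θ) := by
  obtain ⟨k, hk⟩ := (inw_pos h0 h n le_rfl).exit_vertex (vel_ne_zero n θ) hs
  rw [exit_eq] at hk
  refine ⟨k, hk, ?_⟩
  rw [← hk]
  exact E.along h0 h le_rfl (by rw [hk]; exact vertex_mem k)

theorem rot_side (i : Fin 3) (u : ℂ) :
    rfl' b (i + 2) (rfl' b (i + 1) u) =
      ((b (i + 1) - b i) / (b (i + 2) - b i)) / conj ((b (i + 1) - b i) / (b (i + 2) - b i)) *
        u := by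
  have e1 : side b (i + 2) = b (i + 1) - b i := by
    unfold side; fin_cases i <;> rfl
  have e2 : side b (i + 1) = -(b (i + 2) - b i) := by
    unfold side; fin_cases i <;> simp
  rw [rfl'_apply, rfl'_apply, e1, e2]
  simp only [map_mul, map_div₀, Complex.conj_conj, map_neg, neg_div_neg_eq]
  have h1 : b (i + 1) - b i ≠ 0 := e1 ▸ side_ne_zero b (i + 2)
  have h2 : b (i + 2) - b i ≠ 0 := by
    have := side_ne_zero b (i + 1); rw [e2] at this; exact fun h => this (by rw [h, neg_zero])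
  have h1' : conj (b (i + 1) - b i) ≠ 0 := (map_ne_zero _).2 h1
  rw [map_sub] at h1'
  have h2' : conj (b (i + 2) - b i) ≠ 0 := (map_ne_zero _).2 h2
  rw [map_sub] at h2'
  field_simp

/-- An eigenfunction is constant on the directions at a vertex with irrational angle. -/
theorem Eig.vertex_const (E : Eig b f l) (i : Fin 3)
    (hirr : Irrational (EuclideanGeometry.angle (b (i + 1)) (b i) (b (i + 2)) / Real.pi)) :
    ∀ u : ℂ, ‖u‖ = 1 → f (b i) u = f (b i) 1 := by
  set q : ℂ := (b (i + 1) - b i) / (b (i + 2) - b i) with hq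
  have hne : ∀ j, j ≠ i → b j - b i ≠ 0 := fun j hj =>
    sub_ne_zero.2 fun h => hj (b.ind.injective h)
  have hi1 : i + 1 ≠ i ∧ i + 2 ≠ i := by fin_cases i <;> decide
  have hq0 : q ≠ 0 := div_ne_zero (hne _ hi1.1) (hne _ hi1.2)
  have hang : EuclideanGeometry.angle (b (i + 1)) (b i) (b (i + 2)) = |q.arg| :=
    Complex.angle_eq_abs_arg (hne _ hi1.1) (hne _ hi1.2)
  rw [hang] at hirr
  set φ : ℝ → ℂ := fun θ => f (b i) (dirv θ) with hφ
  have hφc : Continuous φ := by
    refine E.cont.comp_continuous (f := fun θ => ((b i : ℂ), dirv θ))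
      (continuous_const.prodMk continuous_dirv) fun θ =>
      ⟨vertex_mem i, mem_sphere_zero_iff_norm.2 (norm_dirv θ)⟩
  have hfac : q / conj q = dirv (2 * q.arg) := by
    conv_lhs => rw [← Complex.norm_mul_exp_arg_mul_I q]
    rw [map_mul, Complex.conj_ofReal, ← Complex.exp_conj, map_mul, Complex.conj_ofReal,
      Complex.conj_I, mul_div_mul_left _ _ (by exact_mod_cast norm_ne_zero_iff.2 hq0),
      ← Complex.exp_sub, dirv]
    congr 1
    push_cast; ring
  let S : AddSubgroup ℝ :=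
    { carrier := {r | ∀ θ, φ (θ + r) = φ θ}
      add_mem' := fun {a c} ha hc θ => by rw [← add_assoc, hc, ha]
      zero_mem' := fun θ => by rw [add_zero]
      neg_mem' := fun {a} ha θ => by
        have := ha (θ + -a)
        rw [neg_add_cancel_right] at this
        exact this.symm }
  have hS1 : (2 * Real.pi) ∈ S := fun θ => by
    simp only [hφ, dirv]
    congr 1
    rw [show ((θ + 2 * Real.pi : ℝ) : ℂ) * Complex.I =
      (θ : ℂ) * Complex.I + 2 * Real.pi * Complex.I by push_cast; ring,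
      Complex.exp_add, Complex.exp_two_pi_mul_I, mul_one]
  have hS2 : (2 * q.arg) ∈ S := fun θ => by
    have hv := vertex_mem (b := b) i
    have hn : ‖rfl' b (i + 1) (dirv θ)‖ = 1 := by rw [norm_rfl', norm_dirv]
    have h1 := E.bounce (i + 2) _ _ hn hv (coord_vertex_ne hi1.2)
    rw [E.bounce (i + 1) _ _ (norm_dirv θ) hv (coord_vertex_ne hi1.1), rot_side, ← hq, hfac] at h1
    simp only [hφ]
    rw [← h1]
    congr 1
    rw [dirv, dirv, dirv, ← Complex.exp_add]
    congr 1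
    push_cast; ring
  have hd : Dense (S : Set ℝ) := by
    rcases S.dense_or_cyclic with h | ⟨a, ha⟩
    · exact h
    exfalso
    obtain ⟨m, hm⟩ := AddSubgroup.mem_closure_singleton.1 (ha ▸ hS1)
    obtain ⟨k, hk⟩ := AddSubgroup.mem_closure_singleton.1 (ha ▸ hS2)
    rw [zsmul_eq_mul] at hm hk
    have hm0 : (m : ℝ) ≠ 0 := by
      intro h; rw [h, zero_mul] at hm; linarith [Real.pi_pos]
    have harg : q.arg / Real.pi = k / m := by
      rw [div_eq_div_iff Real.pi_ne_zero hm0]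
      have : q.arg = k * a / 2 := by linarith
      rw [this, show Real.pi = m * a / 2 by linarith]; ring
    refine hirr ⟨|(k : ℚ) / m|, ?_⟩
    rw [Rat.cast_abs, Rat.cast_div, Rat.cast_intCast, Rat.cast_intCast, ← harg, abs_div,
      abs_of_pos Real.pi_pos]
  have hcl : IsClosed (S : Set ℝ) := by
    have : (S : Set ℝ) = ⋂ θ, {r | φ (θ + r) = φ θ} := by ext r; simp [S]
    rw [this]
    exact isClosed_iInter fun θ =>
      isClosed_eq (hφc.comp (continuous_const.add continuous_id)) continuous_const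
  have hall : ∀ r, r ∈ S := fun r => by
    have : r ∈ closure (S : Set ℝ) := hd r
    rwa [hcl.closure_eq] at this
  intro u hu
  have e : u = dirv u.arg := by
    conv_lhs => rw [← Complex.norm_mul_exp_arg_mul_I u, hu, Complex.ofReal_one, one_mul]
    rfl
  have := hall u.arg 0
  rw [zero_add] at this
  simp only [hφ] at this
  rw [← e] at this
  rw [this]
  congr 1
  simp [dirv]

end Vale.Agent.P099
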