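import Vale.Agent.P099.Corridor

/-!
P099: continuous eigenfunctions of an irrational triangular billiard are constant.
-/

open scoped ComplexConjugate
open Complex Filter Topology Set

noncomputable section

namespace Vale.Agent.P099

variable {b : AffineBasis (Fin 3) ℝ ℂ} {f : ℂ → ℂ → ℂ} {l : ℝ}

/-- An inner point of the triangle. -/
def mid (b : AffineBasis (Fin 3) ℝ ℂ) : ℂ := Finset.univ.centroid ℝ b

theorem coord_mid (i : Fin 3) : b.coord i (mid b) = 1 / 3 := by
  rw [mid, b.coord_apply_centroid (Finset.mem_univ i)]; simp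

theorem dirv_arg {u : ℂ} (hu : ‖u‖ = 1) : dirv u.arg = u := by
  conv_rhs => rw [← Complex.norm_mul_exp_arg_mul_I u, hu, Complex.ofReal_one, one_mul]
  rfl

theorem exists_inw_vertex (i : Fin 3) :
    ∃ a c : ℝ, a < c ∧ ∀ θ ∈ Icc a c, Inw b (b i) (dirv θ) := by
  set w := mid b - b i with hw
  have hwj : ∀ j, j ≠ i → 0 < mu b j w := fun j hj => by
    have h := (b.coord j).linearMap_vsub (mid b) (b i)
    simp only [vsub_eq_sub] at h
    rw [mu, hw, h, coord_mid, coord_vertex_ne hj]; norm_num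
  have hw0 : w ≠ 0 := by
    intro h
    obtain ⟨j, hj⟩ : ∃ j : Fin 3, j ≠ i := exists_ne i
    have := hwj j hj
    rw [h, map_zero] at this; exact lt_irrefl _ this
  have hn : 0 < ‖w‖ := norm_pos_iff.2 hw0
  have hd : dirv w.arg = ‖w‖⁻¹ • w := by
    rw [eq_inv_smul_iff₀ hn.ne', Complex.real_smul]
    exact Complex.norm_mul_exp_arg_mul_I w
  have hin : Inw b (b i) (dirv w.arg) := fun j => by
    refine ⟨vertex_mem i j, fun hz => ?_⟩
    rw [hd, map_smul, smul_eq_mul]
    refine mul_pos (inv_pos.2 hn) (hwj j fun e => ?_)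
    rw [e, coord_basis, if_pos rfl] at hz
    exact one_ne_zero hz
  obtain ⟨r, hr, hball⟩ := Metric.eventually_nhds_iff.1 (inw_eventually hin)
  refine ⟨w.arg, w.arg + r / 2, by linarith, fun θ hθ => hball ?_⟩
  rw [Real.dist_eq, abs_lt]
  constructor <;> linarith [hθ.1, hθ.2]

theorem Eig.const_all (E : Eig b f l)
    (hirr : ∀ i : Fin 3,
      Irrational (EuclideanGeometry.angle (b (i + 1)) (b i) (b (i + 2)) / Real.pi)) :
    ∃ C : ℂ, (∀ y ∈ tri b, ∀ u : ℂ, ‖u‖ = 1 → f y u = C) ∧ (l ≠ 0 → C = 0) := by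
  have hV : ∀ i, ∀ u v : ℂ, ‖u‖ = 1 → ‖v‖ = 1 → f (b i) u = f (b i) v := fun i u v hu hv => by
    rw [E.vertex_const i (hirr i) u hu, E.vertex_const i (hirr i) v hv]
  have hzero : l ≠ 0 → ∀ i, f (b i) 1 = 0 := fun hl i => by
    obtain ⟨a, c, hac, h⟩ := exists_inw_vertex (b := b) i
    exact E.vanish hl hV (fun θ => E.vertex_const i (hirr i) _ (norm_dirv θ)) hac h
  set C := f (b 0) 1 with hC
  have hCl : l ≠ 0 → C = 0 := fun hl => hzero hl 0
  have hvC : ∀ i, ∀ u : ℂ, ‖u‖ = 1 → f (b i) u = C := by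
    intro i u hu
    rw [E.vertex_const i (hirr i) u hu]
    by_cases hl : l = 0
    swap
    · rw [hzero hl i, hCl hl]
    by_cases hi : i = 0
    · rw [hi]
    have hw : (b i : ℂ) - b 0 ≠ 0 := sub_ne_zero.2 fun h => hi (b.ind.injective h)
    set v := ‖(b i : ℂ) - b 0‖⁻¹ • ((b i : ℂ) - b 0) with hv
    have hv1 : ‖v‖ = 1 := by
      rw [hv, norm_smul, norm_inv, norm_norm, inv_mul_cancel₀ (norm_ne_zero_iff.2 hw)]
    have he : (b 0 : ℂ) + ‖(b i : ℂ) - b 0‖ • v = b i := by
      rw [hv, smul_smul, mul_inv_cancel₀ (norm_ne_zero_iff.2 hw), one_smul, add_sub_cancel]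
    have := E.move (b 0) v _ hv1 (norm_nonneg _) (vertex_mem 0) (by rw [he]; exact vertex_mem i)
    rw [he, hl, zero_mul, Complex.ofReal_zero, zero_mul, Complex.exp_zero, one_mul,
      E.vertex_const i (hirr i) v hv1, E.vertex_const 0 (hirr 0) v hv1] at this
    exact this
  refine ⟨C, ?_, hCl⟩
  have hin : ∀ x : ℂ, (∀ i, 0 < b.coord i x) → ∀ u : ℂ, ‖u‖ = 1 → f x u = C := by
    intro x hx u hu
    have hI : ∀ θ, Inw b x (dirv θ) := fun θ i =>
      ⟨(hx i).le, fun h => absurd h (hx i).ne'⟩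
    have hxt : x ∈ tri b := fun i => (hx i).le
    have hc : Continuous fun θ => f x (dirv θ) := by
      refine E.cont.comp_continuous (f := fun θ => (x, dirv θ))
        (continuous_const.prodMk continuous_dirv) fun θ =>
        ⟨hxt, mem_sphere_zero_iff_norm.2 (norm_dirv θ)⟩
    have hd : ∀ a c : ℝ, a < c → c < a + Real.pi → ∃ θ ∈ Icc a c, f x (dirv θ) = C := by
      intro a c hac hca
      obtain ⟨θ, hθ, n, hg, hs⟩ := exists_singular (b := b) hac hca fun θ _ => hI θ
      obtain ⟨k, -, hk⟩ := E.to_vertex (hI θ) hg hs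
      rw [hvC k _ (norm_vel n θ)] at hk
      refine ⟨θ, hθ, ?_⟩
      by_cases hl : l = 0
      · rw [hl, zero_mul, Complex.ofReal_zero, zero_mul, Complex.exp_zero, one_mul] at hk
        exact hk.symm
      · rw [hCl hl] at hk ⊢
        exact (mul_eq_zero.1 hk.symm).resolve_left (Complex.exp_ne_zero _)
    by_contra hne
    rw [← dirv_arg hu] at hne
    obtain ⟨r, hr, hball⟩ :=
      Metric.eventually_nhds_iff.1 ((hc.tendsto u.arg).eventually_ne hne)
    have hm : 0 < min (r / 2) 1 := lt_min (by linarith) one_pos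
    obtain ⟨θ, hθ, he⟩ := hd u.arg (u.arg + min (r / 2) 1) (by linarith)
      (by linarith [min_le_right (r / 2) (1 : ℝ), Real.pi_gt_three])
    refine hball ?_ he
    rw [Real.dist_eq, abs_lt]
    constructor <;> linarith [hθ.1, hθ.2, min_le_left (r / 2) (1 : ℝ)]
  intro y hy u hu
  set g : ℝ → ℂ := fun s => y + s • (mid b - y) with hg
  have hcoord : ∀ s i, b.coord i (g s) = (1 - s) * b.coord i y + s * (1 / 3) := fun s i => by
    have h := (b.coord i).linearMap_vsub (mid b) y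
    simp only [vsub_eq_sub] at h
    rw [hg]; simp only
    rw [coord_aff, mu, h, coord_mid]; ring
  have hgi : ∀ s ∈ Ioc (0 : ℝ) 1, ∀ i, 0 < b.coord i (g s) := fun s hs i => by
    rw [hcoord]
    have := mul_nonneg (sub_nonneg.2 hs.2) (hy i)
    linarith [hs.1]
  haveI : (𝓝[Ioc (0 : ℝ) 1] 0).NeBot := mem_closure_iff_nhdsWithin_neBot.1
    (by rw [closure_Ioc (by norm_num : (0 : ℝ) ≠ 1)]; exact ⟨le_rfl, zero_le_one⟩)
  have hgc : Tendsto g (𝓝[Ioc (0 : ℝ) 1] 0) (𝓝 (g 0)) :=
    ((by fun_prop : Continuous g).tendsto 0).mono_left nhdsWithin_le_nhds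
  have hg0 : g 0 = y := by simp [hg]
  have h := cont_at (d := fun _ : ℝ => u) E hgc tendsto_const_nhds
    (fun s hs i => (hgi s hs i).le) (fun _ => hu) (hg0.symm ▸ hy)
  rw [hg0] at h
  exact tendsto_nhds_unique h (tendsto_const_nhds.congr'
    (eventually_nhdsWithin_of_forall fun s hs => (hin (g s) (hgi s hs) u hu).symm))

/-- The laws on the open triangle and the open sides give an eigenfunction on the closure. -/
theorem eig_of_open (hc : ContinuousOn (fun q : ℂ × ℂ => f q.1 q.2)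
      (tri b ×ˢ Metric.sphere (0 : ℂ) 1))
    (hm : ∀ y u : ℂ, ∀ t : ℝ, ‖u‖ = 1 → 0 ≤ t → (∀ i, 0 < b.coord i y) →
      (∀ i, 0 < b.coord i (y + t • u)) →
      f (y + t • u) u = Complex.exp ((l * t : ℝ) * Complex.I) * f y u)
    (hb : ∀ i, ∀ u : ℂ, ‖u‖ = 1 → ∀ s ∈ Ioo (0 : ℝ) 1,
      f (b (i + 1) + s • side b i) (rfl' b i u) = f (b (i + 1) + s • side b i) u) :
    Eig b f l := by
  refine ⟨hc, ?_, ?_⟩
  · intro y u t hu ht hy hy'
    have key : ∀ (z : ℂ), z ∈ tri b → ∀ s ∈ Ioc (0 : ℝ) 1, ∀ i,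
        0 < b.coord i (z + s • (mid b - z)) := fun z hz s hs i => by
      have h := (b.coord i).linearMap_vsub (mid b) z
      simp only [vsub_eq_sub] at h
      rw [coord_aff, mu, h, coord_mid]
      have := mul_nonneg (sub_nonneg.2 hs.2) (hz i)
      linarith [hs.1]
    have hcl : ∀ z, z ∈ tri b → ∀ s ∈ Icc (0 : ℝ) 1, z + s • (mid b - z) ∈ tri b := by
      intro z hz s hs i
      rcases hs.1.lt_or_eq with h | h
      · exact (key z hz s ⟨h, hs.2⟩ i).le
      · rw [← h, zero_smul, add_zero]; exact hz i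
    have hC : ∀ z, z ∈ tri b →
        ContinuousOn (fun s : ℝ => f (z + s • (mid b - z)) u) (Icc 0 1) := fun z hz =>
      hc.comp (f := fun s : ℝ => ((z + s • (mid b - z), u) : ℂ × ℂ))
        ((by fun_prop : Continuous fun s : ℝ => ((z + s • (mid b - z), u) : ℂ × ℂ)).continuousOn)
        fun s hs => ⟨hcl z hz s hs, mem_sphere_zero_iff_norm.2 hu⟩
    have hE : EqOn (fun s : ℝ => f (y + t • u + s • (mid b - (y + t • u))) u)
        (fun s : ℝ => Complex.exp ((l * ((1 - s) * t) : ℝ) * Complex.I) *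
          f (y + s • (mid b - y)) u) (Icc 0 1) := by
      refine Set.EqOn.of_subset_closure (s := Ioc 0 1) ?_ (hC _ hy') ?_ Ioc_subset_Icc_self
        (closure_Ioc (by norm_num : (0 : ℝ) ≠ 1)).ge
      · intro s hs
        have e : y + t • u + s • (mid b - (y + t • u)) =
            y + s • (mid b - y) + ((1 - s) * t) • u := by module
        simp only
        rw [e]
        exact hm _ u _ hu (mul_nonneg (sub_nonneg.2 hs.2) ht) (key y hy s hs)
          (e ▸ key _ hy' s hs)
      · exact ((by fun_prop : Continuous fun s : ℝ =>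
          Complex.exp ((l * ((1 - s) * t) : ℝ) * Complex.I)).continuousOn).mul (hC y hy)
    simpa using hE (left_mem_Icc.2 zero_le_one)
  · intro i y u hu hy hz
    have hy' := eq_of_coord_zero b i y hz
    set s₀ := b.coord (i + 2) y
    have hs₀ : s₀ ∈ Icc (0 : ℝ) 1 := by
      refine ⟨hy _, ?_⟩
      rw [← b.sum_coord_apply_eq_one y]
      exact Finset.single_le_sum (f := fun j => b.coord j y) (fun j _ => hy j) (Finset.mem_univ _)
    have hmem : ∀ s ∈ Icc (0 : ℝ) 1, b (i + 1) + s • side b i ∈ tri b := by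
      intro s hs j
      have := (b.coord j).linearMap_vsub (b (i + 2)) (b (i + 1))
      simp only [vsub_eq_sub] at this
      rw [coord_aff, mu, side, this, coord_basis, coord_basis]
      split_ifs <;> linarith [hs.1, hs.2]
    have hC : ∀ w : ℂ, ‖w‖ = 1 →
        ContinuousOn (fun s : ℝ => f (b (i + 1) + s • side b i) w) (Icc 0 1) := fun w hw =>
      hc.comp (f := fun s : ℝ => ((b (i + 1) + s • side b i, w) : ℂ × ℂ))
        ((by fun_prop : Continuous fun s : ℝ => ((b (i + 1) + s • side b i, w) : ℂ × ℂ)).continuousOn)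
        fun s hs => ⟨hmem s hs, mem_sphere_zero_iff_norm.2 hw⟩
    have hE : EqOn (fun s : ℝ => f (b (i + 1) + s • side b i) (rfl' b i u))
        (fun s : ℝ => f (b (i + 1) + s • side b i) u) (Icc 0 1) :=
      Set.EqOn.of_subset_closure (fun s hs => hb i u hu s hs) (hC _ (by rw [norm_rfl', hu]))
        (hC u hu) Ioo_subset_Icc_self (closure_Ioo (by norm_num : (0 : ℝ) ≠ 1)).ge
    rw [hy']
    exact hE hs₀

end Vale.Agent.P099
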