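import Vale.Agent.P099.Tri

/-!
P099: orbits, corridors and the density of singular directions.
-/

open scoped ComplexConjugate
open Complex Filter Topology Set

noncomputable section

namespace Vale.Agent.P099

variable (b : AffineBasis (Fin 3) ℝ ℂ) (x : ℂ)

/-- The unfolding map and the time of the `n`-th collision. -/
def orb (θ : ℝ) : ℕ → (ℂ →ᵃ[ℝ] ℂ) × ℝ
  | 0 => (AffineMap.id ℝ ℂ, 0)
  | n + 1 =>
    let g := (orb θ n).1
    let T := (orb θ n).2
    let y := g (x + T • dirv θ)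
    let v := g.linear (dirv θ)
    ((reflA b (jex b y v)).comp g, T + tau b y v)

/-- The unfolding map. -/
abbrev G (n : ℕ) (θ : ℝ) : ℂ →ᵃ[ℝ] ℂ := (orb b x θ n).1

/-- The collision time. -/
abbrev Tm (n : ℕ) (θ : ℝ) : ℝ := (orb b x θ n).2

/-- The position at a collision. -/
def pos (n : ℕ) (θ : ℝ) : ℂ := G b x n θ (x + Tm b x n θ • dirv θ)

/-- The velocity after a collision. -/
def vel (n : ℕ) (θ : ℝ) : ℂ := (G b x n θ).linear (dirv θ)

/-- The side of the next collision. -/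
def ext' (n : ℕ) (θ : ℝ) : Fin 3 := jex b (pos b x n θ) (vel b x n θ)

/-- The next collision avoids the vertices. -/
def Smp (n : ℕ) (θ : ℝ) : Prop := Simple b (pos b x n θ) (vel b x n θ)

/-- The first `n` collisions avoid the vertices. -/
def Good (n : ℕ) (θ : ℝ) : Prop := ∀ k < n, Smp b x k θ

variable {b x}

theorem G_succ (n : ℕ) (θ : ℝ) :
    G b x (n + 1) θ = (reflA b (ext' b x n θ)).comp (G b x n θ) := rfl

theorem Tm_succ (n : ℕ) (θ : ℝ) :
    Tm b x (n + 1) θ = Tm b x n θ + tau b (pos b x n θ) (vel b x n θ) := rfl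

theorem norm_G_linear (n : ℕ) (θ : ℝ) (v : ℂ) : ‖(G b x n θ).linear v‖ = ‖v‖ := by
  induction n with
  | zero => simp [G, orb]
  | succ n ih => rw [G_succ, AffineMap.comp_linear, LinearMap.comp_apply]; exact (norm_rfl' b _ _).trans ih

theorem norm_vel (n : ℕ) (θ : ℝ) : ‖vel b x n θ‖ = 1 := by
  rw [vel, norm_G_linear, norm_dirv]

theorem vel_ne_zero (n : ℕ) (θ : ℝ) : vel b x n θ ≠ 0 := by
  intro h
  have := norm_vel (b := b) (x := x) n θ
  simp [h] at this

theorem G_line (n : ℕ) (θ : ℝ) (t : ℝ) :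
    G b x n θ (x + t • dirv θ) = pos b x n θ + (t - Tm b x n θ) • vel b x n θ := by
  rw [pos, vel, aff_apply, aff_apply _ x, sub_smul]; abel

theorem exit_eq (n : ℕ) (θ : ℝ) :
    pos b x n θ + tau b (pos b x n θ) (vel b x n θ) • vel b x n θ =
      G b x n θ (x + Tm b x (n + 1) θ • dirv θ) := by
  rw [G_line, Tm_succ, add_sub_cancel_left]

theorem pos_succ' (n : ℕ) (θ : ℝ) :
    pos b x (n + 1) θ = reflA b (ext' b x n θ) (G b x n θ (x + Tm b x (n + 1) θ • dirv θ)) := rfl

theorem vel_succ (n : ℕ) (θ : ℝ) :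
    vel b x (n + 1) θ = rfl' b (ext' b x n θ) (vel b x n θ) := rfl

theorem pos_zero (θ : ℝ) : pos b x 0 θ = x := by simp [pos, G, Tm, orb]

theorem vel_zero (θ : ℝ) : vel b x 0 θ = dirv θ := by simp [vel, G, orb]

theorem pos_succ {n : ℕ} {θ : ℝ} (h : Inw b (pos b x n θ) (vel b x n θ)) :
    pos b x (n + 1) θ = G b x n θ (x + Tm b x (n + 1) θ • dirv θ) := by
  rw [pos_succ']
  refine reflA_fix b _ _ ?_
  rw [← exit_eq]
  exact h.exit_jex (vel_ne_zero n θ)

theorem Good.mono {n m : ℕ} {θ : ℝ} (h : Good b x n θ) (hm : m ≤ n) : Good b x m θ :=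
  fun k hk => h k (lt_of_lt_of_le hk hm)

theorem inw_pos {n : ℕ} {θ : ℝ} (h0 : Inw b x (dirv θ)) (h : Good b x n θ) :
    ∀ k ≤ n, Inw b (pos b x k θ) (vel b x k θ) := by
  intro k
  induction k with
  | zero => intro _; rw [pos_zero, vel_zero]; exact h0
  | succ k ih =>
    intro hk
    have hi := ih (by omega)
    rw [pos_succ hi, ← exit_eq, vel_succ]
    exact hi.step (vel_ne_zero k θ) (h k (by omega))

theorem Tm_lt {n : ℕ} {θ : ℝ} (h0 : Inw b x (dirv θ)) (h : Good b x n θ) {k : ℕ} (hk : k ≤ n) :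
    Tm b x k θ < Tm b x (k + 1) θ := by
  rw [Tm_succ]
  linarith [(inw_pos h0 h k hk).tau_pos (vel_ne_zero k θ)]

theorem Tm_le {n : ℕ} {θ : ℝ} (h0 : Inw b x (dirv θ)) (h : Good b x n θ) {i k : ℕ} (hik : i ≤ k)
    (hk : k ≤ n + 1) : Tm b x i θ ≤ Tm b x k θ := by
  induction k with
  | zero => rw [Nat.le_zero.1 hik]
  | succ k ih =>
    rcases Nat.le_or_eq_of_le_succ hik with h' | h'
    · exact (ih h' (by omega)).trans (Tm_lt h0 h (by omega)).le
    · rw [h']

theorem Tm_nonneg {n : ℕ} {θ : ℝ} (h0 : Inw b x (dirv θ)) (h : Good b x n θ) {k : ℕ}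
    (hk : k ≤ n + 1) : 0 ≤ Tm b x k θ :=
  Tm_le h0 h (Nat.zero_le k) hk

/-- Constancy and continuity of the data up to step `n` on a set of directions. -/
structure Reg (b : AffineBasis (Fin 3) ℝ ℂ) (x : ℂ) (J : Set ℝ) (n : ℕ) : Prop where
  gconst : ∀ θ ∈ J, ∀ θ' ∈ J, G b x n θ = G b x n θ'
  cont : ContinuousOn (Tm b x n) J
  pat : ∀ i, (∀ θ ∈ J, b.coord i (pos b x n θ) = 0) ∨ (∀ θ ∈ J, 0 < b.coord i (pos b x n θ))

theorem Reg.cont_pos {J : Set ℝ} {n : ℕ} (r : Reg b x J n) :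
    ContinuousOn (pos b x n) J ∧ ContinuousOn (vel b x n) J := by
  rcases J.eq_empty_or_nonempty with rfl | ⟨θ₀, h₀⟩
  · exact ⟨continuousOn_empty _, continuousOn_empty _⟩
  have hd : ContinuousOn dirv J := continuous_dirv.continuousOn
  constructor
  · refine (((continuous_aff (G b x n θ₀)).comp_continuousOn
      ((continuousOn_const (c := x)).add (r.cont.smul hd)))).congr fun θ hθ => ?_
    rw [pos, r.gconst θ hθ θ₀ h₀]; rfl
  · refine (((G b x n θ₀).linear.continuous_of_finiteDimensional.comp_continuousOn hd)).congr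
      fun θ hθ => ?_
    rw [vel, r.gconst θ hθ θ₀ h₀]; rfl

theorem Reg.cont_rat {J : Set ℝ} {n : ℕ} (r : Reg b x J n) (i : Fin 3) :
    ContinuousOn (fun θ => rat b (pos b x n θ) (vel b x n θ) i) J := by
  rcases r.pat i with h | h
  · refine (continuousOn_const (c := (0 : ℝ))).congr fun θ hθ => ?_
    simp [rat, h θ hθ]
  · exact (((continuous_mu b i).comp_continuousOn r.cont_pos.2).neg).div
      ((continuous_coord b i).comp_continuousOn r.cont_pos.1) fun θ hθ => (h θ hθ).ne'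

theorem Reg.cont_succ {J : Set ℝ} {n : ℕ} (r : Reg b x J n) (h0 : ∀ θ ∈ J, Inw b x (dirv θ))
    (hg : ∀ θ ∈ J, Good b x n θ) : ContinuousOn (Tm b x (n + 1)) J := by
  have hr : ContinuousOn (fun θ => rho b (pos b x n θ) (vel b x n θ)) J :=
    ContinuousOn.finset_sup'_apply _ fun i _ => r.cont_rat i
  refine (r.cont.add (continuousOn_const.div hr fun θ hθ => ?_)).congr fun θ _ => Tm_succ n θ
  exact ((inw_pos (h0 θ hθ) (hg θ hθ) n le_rfl).rho_pos (vel_ne_zero n θ)).ne'

theorem Reg.jex_eventually {J : Set ℝ} {n : ℕ} (r : Reg b x J n) {θ : ℝ} (hθ : θ ∈ J)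
    (hs : Smp b x n θ) : ∀ᶠ θ' in 𝓝[J] θ, Smp b x n θ' ∧ ext' b x n θ' = ext' b x n θ := by
  obtain ⟨j, hj⟩ := hs
  have : ∀ i, ∀ᶠ θ' in 𝓝[J] θ, i ≠ j →
      rat b (pos b x n θ') (vel b x n θ') i < rat b (pos b x n θ') (vel b x n θ') j := by
    intro i
    by_cases hi : i = j
    · exact Eventually.of_forall fun _ h => absurd hi h
    · exact ((r.cont_rat i θ hθ).eventually_lt (r.cont_rat j θ hθ) (hj i hi)).mono fun _ h _ => h
  filter_upwards [eventually_all.2 this] with θ' h'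
  exact ⟨⟨j, h'⟩, (jex_eq b h').trans (jex_eq b hj).symm⟩

theorem Reg.jex_const {J : Set ℝ} {n : ℕ} (r : Reg b x J n) (hJ : IsPreconnected J)
    (hs : ∀ θ ∈ J, Smp b x n θ) : ∀ θ ∈ J, ∀ θ' ∈ J, ext' b x n θ = ext' b x n θ' := by
  intro θ hθ θ' hθ'
  refine hJ.constant (f := ext' b x n) ?_ hθ hθ'
  intro t ht
  exact tendsto_nhds_of_eventually_eq ((r.jex_eventually ht (hs t ht)).mono fun _ h => h.2)

theorem reg_zero (J : Set ℝ) (h0 : ∀ θ ∈ J, Inw b x (dirv θ)) : Reg b x J 0 where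
  gconst _ _ _ _ := rfl
  cont := continuousOn_const
  pat i := by
    rcases J.eq_empty_or_nonempty with rfl | ⟨θ₀, h₀⟩
    · exact Or.inl fun _ h => h.elim
    rcases (h0 θ₀ h₀ i).1.lt_or_eq with h | h
    · exact Or.inr fun θ _ => by rw [pos_zero]; exact h
    · exact Or.inl fun θ _ => by rw [pos_zero]; exact h.symm

theorem reg {J : Set ℝ} (hJ : IsPreconnected J) (h0 : ∀ θ ∈ J, Inw b x (dirv θ)) :
    ∀ n, (∀ θ ∈ J, Good b x n θ) → Reg b x J n := by
  intro n
  induction n with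
  | zero => exact fun _ => reg_zero J h0
  | succ n ih =>
    intro hg
    have hgn : ∀ θ ∈ J, Good b x n θ := fun θ hθ => (hg θ hθ).mono (Nat.le_succ n)
    have hs : ∀ θ ∈ J, Smp b x n θ := fun θ hθ => hg θ hθ n (Nat.lt_succ_self n)
    have r := ih hgn
    have hj := r.jex_const hJ hs
    refine ⟨fun θ hθ θ' hθ' => ?_, r.cont_succ h0 hgn, fun i => ?_⟩
    · rw [G_succ, G_succ, hj θ hθ θ' hθ', r.gconst θ hθ θ' hθ']
    · rcases J.eq_empty_or_nonempty with rfl | ⟨θ₀, h₀⟩
      · exact Or.inl fun _ h => h.elim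
      have hex : ∀ θ ∈ J, pos b x (n + 1) θ =
          pos b x n θ + tau b (pos b x n θ) (vel b x n θ) • vel b x n θ := fun θ hθ => by
        rw [pos_succ (inw_pos (h0 θ hθ) (hgn θ hθ) n le_rfl), exit_eq]
      by_cases hi : i = ext' b x n θ₀
      · refine Or.inl fun θ hθ => ?_
        rw [hex θ hθ, hi, hj θ₀ h₀ θ hθ]
        exact (inw_pos (h0 θ hθ) (hgn θ hθ) n le_rfl).exit_jex (vel_ne_zero n θ)
      · refine Or.inr fun θ hθ => ?_
        rw [hex θ hθ]
        exact (inw_pos (h0 θ hθ) (hgn θ hθ) n le_rfl).exit_pos (vel_ne_zero n θ) (hs θ hθ)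
          (by rwa [hj θ₀ h₀ θ hθ] at hi)

theorem inw_eventually {θ : ℝ} (h : Inw b x (dirv θ)) : ∀ᶠ t in 𝓝 θ, Inw b x (dirv t) := by
  refine eventually_all.2 fun i => ?_
  rcases (h i).1.lt_or_eq with hc | hc
  · exact Eventually.of_forall fun t => ⟨hc.le, fun e => absurd e hc.ne'⟩
  · have hp := (h i).2 hc.symm
    filter_upwards [((continuous_mu b i).comp continuous_dirv).continuousAt.eventually_const_lt hp]
      with t ht
    exact ⟨hc.le, fun _ => ht⟩

theorem good_nhds {θ : ℝ} (h0 : Inw b x (dirv θ)) : ∀ n, Good b x n θ →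
    ∃ δ > 0, ∀ t ∈ Ioo (θ - δ) (θ + δ), Inw b x (dirv t) ∧ Good b x n t := by
  intro n
  induction n with
  | zero =>
    intro _
    obtain ⟨δ, hδ, h⟩ := Metric.eventually_nhds_iff.1 (inw_eventually h0)
    refine ⟨δ, hδ, fun t ht => ⟨h ?_, fun k hk => absurd hk (Nat.not_lt_zero k)⟩⟩
    rw [Real.dist_eq, abs_lt]; constructor <;> linarith [ht.1, ht.2]
  | succ n ih =>
    intro hg
    obtain ⟨δ, hδ, h⟩ := ih (hg.mono (Nat.le_succ n))
    have hθ : θ ∈ Ioo (θ - δ) (θ + δ) := ⟨by linarith, by linarith⟩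
    have r := reg isPreconnected_Ioo (fun t ht => (h t ht).1) n fun t ht => (h t ht).2
    have he := r.jex_eventually hθ (hg n (Nat.lt_succ_self n))
    rw [isOpen_Ioo.nhdsWithin_eq hθ] at he
    obtain ⟨e, he0, he'⟩ := Metric.eventually_nhds_iff.1 he
    refine ⟨min δ e, lt_min hδ he0, fun t ht => ?_⟩
    have h1 := min_le_left δ e
    have h2 := min_le_right δ e
    have hd : dist t θ < e := by
      rw [Real.dist_eq, abs_lt]; constructor <;> linarith [ht.1, ht.2]
    have hI := h t ⟨by linarith [ht.1], by linarith [ht.2]⟩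
    refine ⟨hI.1, fun k hk => ?_⟩
    rcases Nat.lt_succ_iff_lt_or_eq.1 hk with hk' | hk'
    · exact hI.2 k hk'
    · rw [hk']; exact (he' hd).1

theorem near_third {p q k : Fin 3} (hqp : q ≠ p) (h1 : k ≠ p) (h2 : k ≠ q) {y : ℂ}
    (hy : b.coord p y = 0) : b.coord k y = 1 - b.coord q y := by
  have hs := b.sum_coord_apply_eq_one y
  rw [Fin.sum_univ_three] at hs
  fin_cases p <;> fin_cases q <;> fin_cases k <;> simp at h1 h2 hqp hy ⊢ <;> linarith

theorem fin3_cases : ∀ p q V : Fin 3, (V ≠ p → V = p + 1 ∨ V = p + 2) ∧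
    (q ≠ p → q ≠ p + 1 → q = p + 2) ∧ (q ≠ p → q ≠ p + 2 → q = p + 1) ∧
    p + 1 ≠ p ∧ p + 2 ≠ p ∧ p + 2 ≠ p + 1 := by decide

theorem line_vertex {V p : Fin 3} (hV : V ≠ p) {y : ℂ} (hy : b.coord p y = 0) :
    ∃ s : ℝ, y - b V = s • side b p ∧ ∀ q, q ≠ p → q ≠ V → |s| = |b.coord q y| := by
  have e := eq_of_coord_zero b p y hy
  have hcase : V = p + 1 ∨ V = p + 2 := (fin3_cases p p V).1 hV
  rcases hcase with rfl | rfl
  · refine ⟨b.coord (p + 2) y, by nth_rewrite 1 [e]; abel, fun q h1 h2 => ?_⟩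
    have : q = p + 2 := (fin3_cases p q p).2.1 h1 h2
    rw [this]
  · refine ⟨b.coord (p + 2) y - 1, ?_, fun q h1 h2 => ?_⟩
    · nth_rewrite 1 [e]; rw [sub_smul, one_smul, side]; abel
    · have : q = p + 1 := (fin3_cases p q p).2.2.1 h1 h2
      have h := near_third (b := b) (q := p + 1) (k := p + 2) (p := p)
        (fin3_cases p p p).2.2.2.1 (fin3_cases p p p).2.2.2.2.1 (fin3_cases p p p).2.2.2.2.2 hy
      rw [this, h, show (1 - b.coord (p + 1) y - 1 : ℝ) = -b.coord (p + 1) y by ring, abs_neg]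

theorem crs_rfl' (i : Fin 3) (p q : ℂ) : |crs (rfl' b i p) (rfl' b i q)| = |crs p q| := by
  have e : ∀ p q : ℂ, crs p q = (conj p * q).im := fun p q => by simp [crs]; ring
  have hc : conj (side b i / conj (side b i)) * (side b i / conj (side b i)) = 1 := by
    rw [map_div₀, Complex.conj_conj]
    field_simp [side_ne_zero b i, conj_side_ne_zero b i]
  rw [e, e, rfl'_apply, rfl'_apply, map_mul, Complex.conj_conj, mul_mul_mul_comm, hc, one_mul,
    ← abs_neg]
  congr 1
  simp; ring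

theorem crs_side_ne_zero {i : Fin 3} {u : ℂ} (h : mu b i u ≠ 0) : crs (side b i) u ≠ 0 := by
  intro h1
  refine h ?_
  have hw := side_ne_zero b i
  have him : (u / side b i).im = 0 := by
    rw [Complex.div_im, ← sub_div]
    rw [crs] at h1
    rw [show u.im * (side b i).re - u.re * (side b i).im = 0 by linarith, zero_div]
  have hv : u = (u / side b i).re • side b i := by
    rw [Complex.real_smul]
    conv_lhs => rw [← div_mul_cancel₀ u hw]
    congr 1
    exact Complex.ext (by simp) (by simpa using him)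
  rw [hv, map_smul, mu_side_self, smul_zero]

/-- An orbit that avoids all vertices has unbounded collision times. -/
theorem Tm_unbounded {θ : ℝ} (h0 : Inw b x (dirv θ)) (hg : ∀ n, Good b x n θ) (B : ℝ) :
    ∃ n, B < Tm b x n θ := by
  by_contra! hB
  have hi : ∀ n, Inw b (pos b x n θ) (vel b x n θ) := fun n => inw_pos h0 (hg n) n le_rfl
  set τ : ℕ → ℝ := fun n => tau b (pos b x n θ) (vel b x n θ) with hτ
  have hτpos : ∀ n, 0 < τ n := fun n => (hi n).tau_pos (vel_ne_zero n θ)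
  have hmono : Monotone fun n => Tm b x n θ :=
    monotone_nat_of_le_succ fun n => by rw [Tm_succ]; linarith [hτpos n]
  obtain ⟨l, hl⟩ : ∃ l, Tendsto (fun n => Tm b x n θ) atTop (𝓝 l) :=
    ⟨_, tendsto_atTop_ciSup hmono ⟨B, by rintro _ ⟨n, rfl⟩; exact hB n⟩⟩
  have hτ0 : Tendsto τ atTop (𝓝 0) := by
    have := (hl.comp (tendsto_add_atTop_nat 1)).sub hl
    rw [sub_self] at this
    refine this.congr fun n => ?_
    show Tm b x (n + 1) θ - Tm b x n θ = _
    rw [Tm_succ]; ring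
  obtain ⟨C, hC, hCb⟩ := exists_mu_bound b
  set j : ℕ → Fin 3 := fun n => ext' b x n θ with hj
  have hpos : ∀ n, pos b x (n + 1) θ = pos b x n θ + τ n • vel b x n θ := fun n => by
    rw [pos_succ (hi n), exit_eq]
  have hz : ∀ n, b.coord (j n) (pos b x (n + 1) θ) = 0 := fun n => by
    rw [hpos]; exact (hi n).exit_jex (vel_ne_zero n θ)
  have hlip : ∀ i n, |b.coord i (pos b x (n + 1) θ) - b.coord i (pos b x n θ)| ≤ C * τ n := by
    intro i n
    rw [hpos, coord_aff, add_sub_cancel_left, abs_mul, abs_of_pos (hτpos n)]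
    have := hCb i (vel b x n θ)
    rw [norm_vel, mul_one] at this
    nlinarith [hτpos n, this]
  have hne : ∀ n, j (n + 1) ≠ j n := fun n he => by
    have h := ((hi (n + 1)).jex_pos (vel_ne_zero _ θ)).1
    rw [show jex b (pos b x (n + 1) θ) (vel b x (n + 1) θ) = j n from he, hz] at h
    exact lt_irrefl _ h
  obtain ⟨N, hN⟩ := eventually_atTop.1 (hτ0.eventually (Iio_mem_nhds (show (0 : ℝ) < 1 / (4 * C)
    by positivity)))
  have hsmall : ∀ n ≥ N, C * τ n < 1 / 4 := fun n hn => by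
    have := hN n hn
    rw [lt_div_iff₀ (by positivity)] at this
    nlinarith
  have third : ∀ i j : Fin 3, i ≠ j → ∃ k, k ≠ i ∧ k ≠ j ∧ ∀ l, l = i ∨ l = j ∨ l = k := by decide
  have hq : ∀ n, b.coord (j (n + 1)) (pos b x (n + 1) θ) ≤ C * τ (n + 1) := by
    intro n
    have := hlip (j (n + 1)) (n + 1)
    rw [hz (n + 1), zero_sub, abs_neg] at this
    exact (le_abs_self _).trans this
  -- the vertex near the point after the collision `n + 1`
  have hk : ∀ n ≥ N, ∀ k, k ≠ j n → k ≠ j (n + 1) → 3 / 4 ≤ b.coord k (pos b x (n + 1) θ) := by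
    intro n hn k h1 h2
    rw [near_third (hne n) h1 h2 (hz n)]
    linarith [hq n, hsmall (n + 1) (by omega)]
  obtain ⟨V, hV1, hV2, -⟩ := third (j N) (j (N + 1)) (hne N).symm
  have hV : ∀ n ≥ N, V ≠ j n ∧ V ≠ j (n + 1) := by
    intro n hn
    induction n, hn using Nat.le_induction with
    | base => exact ⟨hV1, hV2⟩
    | succ n hn ih =>
      refine ⟨ih.2, fun he => ?_⟩
      have h1 := hk n hn V ih.1 ih.2
      have h2 := hlip V (n + 1)
      have h3 := hq (n + 1)
      rw [← he] at h3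
      have := hsmall (n + 1) (by omega)
      have := hsmall (n + 1 + 1) (by omega)
      linarith [(abs_le.1 h2).1]
  -- the angular momentum about the vertex is invariant
  set H : ℕ → ℝ := fun n => |crs (pos b x n θ - b V) (vel b x n θ)| with hH
  have hHn : ∀ n ≥ N, H (n + 1) = H n := by
    intro n hn
    obtain ⟨s, hs, -⟩ := line_vertex (hV n hn).1 (hz n)
    have hR : rfl' b (j n) (pos b x (n + 1) θ - b V) = pos b x (n + 1) θ - b V := by
      rw [hs, map_smul, rfl'_apply, div_mul_cancel₀ _ (conj_side_ne_zero b _)]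
    show |crs _ _| = |crs _ _|
    rw [← hR, vel_succ]
    refine (crs_rfl' _ _ _).trans ?_
    rw [hpos]
    congr 1
    simp [crs]; ring
  have hHc : ∀ n ≥ N, H n = H N := fun n hn => by
    induction n, hn using Nat.le_induction with
    | base => rfl
    | succ n hn ih => rw [hHn n hn, ih]
  have hHpos : 0 < H (N + 1) := by
    obtain ⟨s, hs, hs'⟩ := line_vertex (hV N le_rfl).1 (hz N)
    have hp : 0 < b.coord (j (N + 1)) (pos b x (N + 1) θ) :=
      ((hi (N + 1)).jex_pos (vel_ne_zero _ θ)).1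
    have hsn : |s| = b.coord (j (N + 1)) (pos b x (N + 1) θ) := by
      rw [hs' _ (hne N) (hV N le_rfl).2.symm, abs_of_pos hp]
    refine abs_pos.2 fun h0' => ?_
    have e : crs (s • side b (j N)) (vel b x (N + 1) θ) =
        s * crs (side b (j N)) (vel b x (N + 1) θ) := by simp [crs]; ring
    rw [hs, e, mul_eq_zero] at h0'
    rcases h0' with h0' | h0'
    · rw [h0', abs_zero] at hsn
      exact hp.ne hsn
    · exact crs_side_ne_zero (((hi (N + 1)) (j N)).2 (hz N)).ne' h0'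
  rw [hHc _ (Nat.le_succ N)] at hHpos
  -- consecutive collisions are separated
  obtain ⟨D, hD, hDb⟩ : ∃ D > 0, ∀ i, ‖side b i‖ ≤ D := by
    refine ⟨1 + ∑ i, ‖side b i‖, by positivity, fun i => ?_⟩
    linarith [Finset.single_le_sum (f := fun i => ‖side b i‖) (fun i _ => norm_nonneg _)
      (Finset.mem_univ i)]
  have hlow : ∀ n ≥ N, H N ≤ D * (C * τ (n + 1)) := by
    intro n hn
    have h1 := hq n
    have h0' := ((hi (n + 1)) (j (n + 1))).1
    have hnorm : ‖pos b x (n + 1) θ - b V‖ ≤ D * (C * τ (n + 1)) := by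
      obtain ⟨s, hs, hs'⟩ := line_vertex (hV n hn).1 (hz n)
      rw [hs, norm_smul, Real.norm_eq_abs, hs' _ (hne n) (hV n hn).2.symm, abs_of_nonneg h0']
      calc _ ≤ (C * τ (n + 1)) * D := mul_le_mul h1 (hDb _) (norm_nonneg _)
            (mul_pos hC (hτpos _)).le
        _ = _ := mul_comm _ _
    rw [← hHc (n + 1) (by omega)]
    calc H (n + 1) ≤ ‖pos b x (n + 1) θ - b V‖ * ‖vel b x (n + 1) θ‖ := abs_crs_le _ _
      _ = ‖pos b x (n + 1) θ - b V‖ := by rw [norm_vel, mul_one]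
      _ ≤ _ := hnorm
  have hlim : Tendsto (fun n => D * (C * τ (n + 1))) atTop (𝓝 0) := by
    simpa using ((hτ0.comp (tendsto_add_atTop_nat 1)).const_mul C).const_mul D
  linarith [ge_of_tendsto hlim (eventually_atTop.2 ⟨N, hlow⟩)]

theorem exists_bound : ∃ D : ℝ, ∀ y z : ℂ, (∀ i, 0 ≤ b.coord i y) → (∀ i, 0 ≤ b.coord i z) →
    ‖y - z‖ ≤ D := by
  have hK : IsCompact (convexHull ℝ (Set.range b)) := (Set.finite_range b).isCompact_convexHull ℝ
  rw [b.convexHull_eq_nonneg_coord] at hK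
  obtain ⟨D, hD⟩ := hK.isBounded.exists_norm_le
  refine ⟨D + D, fun y z hy hz => (norm_sub_le y z).trans (add_le_add (hD y hy) (hD z hz))⟩

/-- Every interval of directions contains a singular one. -/
theorem exists_singular {a c : ℝ} (hac : a < c) (hc : c < a + Real.pi)
    (h0 : ∀ θ ∈ Icc a c, Inw b x (dirv θ)) :
    ∃ θ ∈ Icc a c, ∃ n, Good b x n θ ∧ ¬ Smp b x n θ := by
  by_contra! h
  have hg : ∀ θ ∈ Icc a c, ∀ n, Good b x n θ := fun θ hθ n => by
    induction n with
    | zero => exact fun k hk => absurd hk (Nat.not_lt_zero k)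
    | succ n ih =>
      intro k hk
      rcases Nat.lt_succ_iff_lt_or_eq.1 hk with hk' | hk'
      · exact ih k hk'
      · exact hk' ▸ h θ hθ n ih
  obtain ⟨D, hD⟩ := exists_bound (b := b)
  have ha : a ∈ Icc a c := ⟨le_rfl, hac.le⟩
  have hc' : c ∈ Icc a c := ⟨hac.le, le_rfl⟩
  have hsin : 0 < Real.sin (c - a) := Real.sin_pos_of_pos_of_lt_pi (by linarith) (by linarith)
  obtain ⟨n, hn⟩ := Tm_unbounded (h0 a ha) (hg a ha) (D / Real.sin (c - a))
  have r := reg isPreconnected_Icc h0 n fun θ hθ => hg θ hθ n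
  have hd := hD (pos b x n a) (pos b x n c)
    (fun i => (inw_pos (h0 a ha) (hg a ha n) n le_rfl i).1)
    fun i => (inw_pos (h0 c hc') (hg c hc' n) n le_rfl i).1
  rw [pos, pos, r.gconst c hc' a ha, aff_apply, aff_apply _ x, add_sub_add_left_eq_sub,
    ← map_smul, ← map_smul, ← map_sub, norm_G_linear] at hd
  have hcr := abs_crs_le (Tm b x n a • dirv a - Tm b x n c • dirv c) (dirv c)
  rw [norm_dirv, mul_one] at hcr
  have e : crs (Tm b x n a • dirv a - Tm b x n c • dirv c) (dirv c) =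
      Tm b x n a * Real.sin (c - a) := by
    rw [← crs_dirv]; simp [crs]; ring
  rw [e] at hcr
  rw [div_lt_iff₀ hsin] at hn
  linarith [le_abs_self (Tm b x n a * Real.sin (c - a))]

end Vale.Agent.P099
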