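import Vale.Agent.P099.Main

/-!
P099: a right triangle doubles to an isosceles triangle with three irrational angles.
-/

open scoped ComplexConjugate RealInnerProductSpace
open Complex Filter Topology Set

noncomputable section

namespace Vale.Agent.P099

variable {b : AffineBasis (Fin 3) ℝ ℂ} {f : ℂ → ℂ → ℂ} {l : ℝ}

theorem expand (y : ℂ) :
    y = b 0 + b.coord 1 y • (b 1 - b 0) + b.coord 2 y • (b 2 - b 0) := by
  refine b.ext_elem fun i => ?_
  have h1 := (b.coord i).linearMap_vsub (b 1) (b 0)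
  have h2 := (b.coord i).linearMap_vsub (b 2) (b 0)
  simp only [vsub_eq_sub] at h1 h2
  rw [coord_aff, coord_aff, mu, h1, h2, coord_basis, coord_basis, coord_basis]
  have hs := b.sum_coord_apply_eq_one y
  rw [Fin.sum_univ_three] at hs
  fin_cases i <;> simp <;> linarith

theorem coords_of_eq {y : ℂ} {s t : ℝ}
    (h : y = b 0 + s • (b 1 - b 0) + t • (b 2 - b 0)) :
    b.coord 0 y = 1 - s - t ∧ b.coord 1 y = s ∧ b.coord 2 y = t := by
  have key : ∀ i, b.coord i y = b.coord i (b 0) + s * (b.coord i (b 1) - b.coord i (b 0)) +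
      t * (b.coord i (b 2) - b.coord i (b 0)) := fun i => by
    have h1 := (b.coord i).linearMap_vsub (b 1) (b 0)
    have h2 := (b.coord i).linearMap_vsub (b 2) (b 0)
    simp only [vsub_eq_sub] at h1 h2
    rw [h, coord_aff, coord_aff, mu, h1, h2]
  refine ⟨?_, ?_, ?_⟩ <;> rw [key] <;> simp <;> ring

theorem rfl'_side (i : Fin 3) : rfl' b i (side b i) = side b i := by
  rw [rfl'_apply, div_mul_cancel₀ _ (conj_side_ne_zero b i)]

theorem refl_comm (i : Fin 3) (w w₀ u : ℂ) (hw : w ≠ 0) (h : rfl' b i w = w₀) :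
    rfl' b i (w / conj w * conj u) = w₀ / conj w₀ * conj (rfl' b i u) := by
  subst h
  have h1 := side_ne_zero b i
  have h2 := conj_side_ne_zero b i
  have h3 : conj w ≠ 0 := (map_ne_zero _).2 hw
  simp only [rfl'_apply, map_mul, map_div₀, Complex.conj_conj]
  field_simp

theorem perp (hr : ⟪(b 1 - b 0 : ℂ), b 2 - b 0⟫ = 0) :
    rfl' b 1 (b 1 - b 0) = -(b 1 - b 0) := by
  have h1 := side_ne_zero b 1
  have hs : side b 1 = -(b 2 - b 0) := by simp [side]
  rw [rfl'_apply, div_mul_eq_mul_div, div_eq_iff (conj_side_ne_zero b 1), hs]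
  have h := Complex.add_conj ((b 2 - b 0) * conj (b 1 - b 0))
  rw [← Complex.inner, hr] at h
  simp only [map_mul, Complex.conj_conj, mul_zero, Complex.ofReal_zero] at h
  simp only [map_neg]
  linear_combination -h

/-- The vertices of the doubled triangle. -/
def dbl (b : AffineBasis (Fin 3) ℝ ℂ) : Fin 3 → ℂ := ![b 2, b 1, b 0 + (b 0 - b 1)]

theorem dbl_ind : AffineIndependent ℝ (dbl b) := by
  rw [affineIndependent_iff_of_fintype]
  intro w hw hws i
  rw [Finset.weightedVSub_eq_weightedVSubOfPoint_of_sum_eq_zero _ _ _ hw (0 : ℂ)] at hws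
  simp [Finset.weightedVSubOfPoint_apply, Fin.sum_univ_three, dbl] at hws
  rw [Fin.sum_univ_three] at hw
  have h := coords_of_eq (b := b) (y := b 0) (s := w 1 - w 2) (t := w 0) (by
    rw [Complex.real_smul, Complex.real_smul]
    have hw' : ((w 0 : ℂ) + w 1 + w 2) = 0 := by exact_mod_cast hw
    push_cast
    linear_combination -hws + (b 0) * hw')
  simp [coord_basis] at h
  fin_cases i <;> simp <;> linarith [h.1, h.2]

variable {b' : AffineBasis (Fin 3) ℝ ℂ}

theorem dbl_coord (hb : ⇑b' = dbl b) (y : ℂ) :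
    b.coord 0 y = 2 * b'.coord 2 y ∧ b.coord 1 y = b'.coord 1 y - b'.coord 2 y ∧
      b.coord 2 y = b'.coord 0 y := by
  have hs := b'.sum_coord_apply_eq_one y
  have hy := b'.linear_combination_coord_eq_self y
  rw [Fin.sum_univ_three] at hs hy
  simp [hb, dbl] at hy
  set p := b'.coord 0 y
  set q := b'.coord 1 y
  set r := b'.coord 2 y
  obtain ⟨h0, h1, h2⟩ := coords_of_eq (b := b) (y := y) (s := q - r) (t := p) (by
    rw [Complex.real_smul, Complex.real_smul]
    have hs' : ((p : ℂ) + q + r) = 1 := by exact_mod_cast hs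
    push_cast
    linear_combination -hy + (b 0) * hs')
  exact ⟨by linarith, h1, h2⟩

theorem reflA_coord (hr : ⟪(b 1 - b 0 : ℂ), b 2 - b 0⟫ = 0) (y : ℂ) :
    b.coord 0 (reflA b 1 y) = b.coord 0 y + 2 * b.coord 1 y ∧
      b.coord 1 (reflA b 1 y) = -b.coord 1 y ∧ b.coord 2 (reflA b 1 y) = b.coord 2 y := by
  have h2 : rfl' b 1 (b 2 - b 0) = b 2 - b 0 := by
    have h := rfl'_side (b := b) 1
    rw [show side b 1 = -(b 2 - b 0) by simp [side], map_neg, neg_inj] at h
    exact h
  have e : reflA b 1 y =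
      b 0 + (-b.coord 1 y) • (b 1 - b 0) + b.coord 2 y • (b 2 - b 0) := by
    have hfix : reflA b 1 (b 0) = b 0 := reflA_fix b 1 _ (coord_vertex_ne (by decide))
    conv_lhs => rw [expand (b := b) y]
    rw [aff_apply, aff_apply, hfix]
    show b 0 + b.coord 1 y • rfl' b 1 (b 1 - b 0) + b.coord 2 y • rfl' b 1 (b 2 - b 0) = _
    rw [perp hr, h2, smul_neg, neg_smul]
  obtain ⟨h0, h1, h2⟩ := coords_of_eq e
  have hs := b.sum_coord_apply_eq_one y
  rw [Fin.sum_univ_three] at hs
  exact ⟨by linarith, h1, h2⟩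

/-- The function on the doubled triangle. -/
def dblf (b : AffineBasis (Fin 3) ℝ ℂ) (f : ℂ → ℂ → ℂ) (y u : ℂ) : ℂ :=
  if 0 ≤ b.coord 1 y then f y u else f (reflA b 1 y) (rfl' b 1 u)

variable (hr : ⟪(b 1 - b 0 : ℂ), b 2 - b 0⟫ = 0) (hb : ⇑b' = dbl b)
include hb

theorem mem_pos {y : ℂ} (hy : y ∈ tri b') (h : 0 ≤ b.coord 1 y) : y ∈ tri b := fun i => by
  obtain ⟨h0, h1, h2⟩ := dbl_coord hb y
  fin_cases i
  · show 0 ≤ b.coord 0 y; linarith [hy 2]
  · exact h
  · show 0 ≤ b.coord 2 y; linarith [hy 0]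

theorem mem_dbl {y : ℂ} (hy : y ∈ tri b) : y ∈ tri b' := fun i => by
  obtain ⟨h0, h1, h2⟩ := dbl_coord hb y
  fin_cases i
  · show 0 ≤ b'.coord 0 y; linarith [hy 2]
  · show 0 ≤ b'.coord 1 y; linarith [hy 0, hy 1]
  · show 0 ≤ b'.coord 2 y; linarith [hy 0]

include hr

theorem mem_neg {y : ℂ} (hy : y ∈ tri b') (h : b.coord 1 y ≤ 0) : reflA b 1 y ∈ tri b := by
  intro i
  obtain ⟨h0, h1, h2⟩ := dbl_coord hb y
  obtain ⟨g0, g1, g2⟩ := reflA_coord hr y
  fin_cases i
  · show 0 ≤ b.coord 0 _; linarith [hy 1]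
  · show 0 ≤ b.coord 1 _; linarith
  · show 0 ≤ b.coord 2 _; linarith [hy 0]

theorem dblf_neg (E : Eig b f l) {y u : ℂ} (hy : y ∈ tri b') (h : b.coord 1 y ≤ 0)
    (hu : ‖u‖ = 1) : dblf b f y u = f (reflA b 1 y) (rfl' b 1 u) := by
  rw [dblf]
  split_ifs with h'
  · have hz : b.coord 1 y = 0 := le_antisymm h h'
    rw [reflA_fix b 1 y hz, E.bounce 1 y u hu (mem_pos hb hy h') hz]
  · rfl

theorem dblf_same (E : Eig b f l) {y u : ℂ} {t : ℝ} (hu : ‖u‖ = 1) (ht : 0 ≤ t)
    (hy : y ∈ tri b') (hy' : y + t • u ∈ tri b')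
    (h : (0 ≤ b.coord 1 y ∧ 0 ≤ b.coord 1 (y + t • u)) ∨
      (b.coord 1 y ≤ 0 ∧ b.coord 1 (y + t • u) ≤ 0)) :
    dblf b f (y + t • u) u = Complex.exp ((l * t : ℝ) * Complex.I) * dblf b f y u := by
  rcases h with ⟨h, h'⟩ | ⟨h, h'⟩
  · rw [dblf, dblf, if_pos h, if_pos h']
    exact E.move y u t hu ht (mem_pos hb hy h) (mem_pos hb hy' h')
  · rw [dblf_neg hr hb E hy h hu, dblf_neg hr hb E hy' h' hu]
    have e : reflA b 1 (y + t • u) = reflA b 1 y + t • rfl' b 1 u := aff_apply _ _ _ _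
    have hm := mem_neg hr hb hy' h'
    rw [e] at hm ⊢
    exact E.move _ _ t (by rw [norm_rfl', hu]) ht (mem_neg hr hb hy h) hm

theorem dblf_eig (E : Eig b f l) : Eig b' (dblf b f) l := by
  refine ⟨?_, ?_, ?_⟩
  · set S := tri b' ×ˢ Metric.sphere (0 : ℂ) 1
    set p : ℂ × ℂ → ℝ := fun q => b.coord 1 q.1
    have hp : Continuous p := (continuous_coord b 1).comp continuous_fst
    have hS : IsClosed S := isClosed_tri.prod Metric.isClosed_sphere
    have e : S = (S ∩ {q | 0 ≤ p q}) ∪ (S ∩ {q | p q ≤ 0}) := by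
      ext q
      constructor
      · intro h; rcases le_total 0 (p q) with h' | h'
        exacts [Or.inl ⟨h, h'⟩, Or.inr ⟨h, h'⟩]
      · rintro (h | h) <;> exact h.1
    rw [e]
    refine ContinuousOn.union_of_isClosed ?_ ?_ (hS.inter (isClosed_le continuous_const hp))
      (hS.inter (isClosed_le hp continuous_const))
    · refine (E.cont.mono ?_).congr fun q hq => if_pos hq.2
      exact fun q hq => ⟨mem_pos hb hq.1.1 hq.2, hq.1.2⟩
    · refine (E.cont.comp (f := fun q : ℂ × ℂ => (reflA b 1 q.1, rfl' b 1 q.2)) ?_ ?_).congr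
        fun q hq => dblf_neg hr hb E hq.1.1 hq.2 (mem_sphere_zero_iff_norm.1 hq.1.2)
      · exact (((continuous_aff _).comp continuous_fst).prodMk
          ((rfl' b 1).continuous_of_finiteDimensional.comp continuous_snd)).continuousOn
      · exact fun q hq => ⟨mem_neg hr hb hq.1.1 hq.2, mem_sphere_zero_iff_norm.2
          (by rw [norm_rfl', mem_sphere_zero_iff_norm.1 hq.1.2])⟩
  · intro y u t hu ht hy hy'
    set p := b.coord 1 y with hp
    set p' := b.coord 1 (y + t • u) with hp'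
    by_cases hs : (0 ≤ p ∧ 0 ≤ p') ∨ (p ≤ 0 ∧ p' ≤ 0)
    · exact dblf_same hr hb E hu ht hy hy' hs
    push Not at hs
    have hd : p - p' ≠ 0 := by
      intro e
      rcases le_total 0 p with h | h
      · linarith [hs.1 h]
      · linarith [hs.2 h]
    set r := p / (p - p')
    have hr01 : 0 ≤ r ∧ r ≤ 1 := by
      rcases le_total 0 p with h | h
      · have := hs.1 h
        exact ⟨div_nonneg h (by linarith), (div_le_one (by linarith)).2 (by linarith)⟩
      · have := hs.2 h
        exact ⟨div_nonneg_of_nonpos h (by linarith), (div_le_one_of_neg (by linarith)).2 (by linarith)⟩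
    set z := y + (r * t) • u with hz
    have hzt : z + ((1 - r) * t) • u = y + t • u := by rw [hz]; module
    have hzm : z ∈ tri b' := fun i => coord_between b' i y u 0 (r * t) t
      (by rw [zero_smul, add_zero]; exact hy i) (hy' i) (mul_nonneg hr01.1 ht)
      (by nlinarith)
    have hz0 : b.coord 1 z = 0 := by
      have e1 : p' = p + t * mu b 1 u := by rw [hp', coord_aff]
      rw [hz, coord_aff, ← hp]
      have : r * (p - p') = p := div_mul_cancel₀ p hd
      linear_combination (1 - r) * 0 + (-1 : ℝ) * this + r * (-1 : ℝ) * e1 + 0 * e1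
    have h1 := dblf_same hr hb E hu (mul_nonneg hr01.1 ht) hy hzm
      (by rw [← hz, hz0]; rcases le_total 0 p with h | h
          exacts [Or.inl ⟨h, le_rfl⟩, Or.inr ⟨h, le_rfl⟩])
    have h2 := dblf_same hr hb E hu (mul_nonneg (sub_nonneg.2 hr01.2) ht) hzm
      (by rw [hzt]; exact hy') (by
        rw [hzt, hz0, ← hp']; rcases le_total 0 p' with h | h
        exacts [Or.inl ⟨le_rfl, h⟩, Or.inr ⟨le_rfl, h⟩])
    rw [hzt, h1, ← mul_assoc, ← Complex.exp_add] at h2
    rw [h2]
    congr 2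
    push_cast; ring
  · intro i y u hu hy hz
    obtain ⟨h0, h1, h2⟩ := dbl_coord hb y
    obtain ⟨g0, g1, g2⟩ := reflA_coord hr y
    have hRu : ‖rfl' b' i u‖ = 1 := by rw [norm_rfl', hu]
    have hρu : ‖rfl' b 1 u‖ = 1 := by rw [norm_rfl', hu]
    have hsd : side b 1 = -(b 2 - b 0) := by simp [side]
    have hA : rfl' b 1 (b 2 - b 0) = b 2 - b 0 := by
      have h := rfl'_side (b := b) 1
      rw [hsd, map_neg, neg_inj] at h
      exact h
    fin_cases i
    · have hR : ∀ v, rfl' b' 0 v = rfl' b 2 v := fun v => by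
        rw [rfl'_apply, rfl'_apply]
        congr 1
        have e : side b' 0 = ((-2 : ℝ) : ℂ) * side b 2 := by simp [side, hb, dbl]; ring
        rw [e, map_mul, Complex.conj_ofReal, mul_div_mul_left _ _ (by norm_num)]
      have hc : rfl' b 1 (rfl' b 2 u) = rfl' b 2 (rfl' b 1 u) := by
        have he : rfl' b 1 (side b 2) = -side b 2 := by
          rw [show side b 2 = b 1 - b 0 by simp [side]]; exact perp hr
        rw [rfl'_apply b 2, refl_comm 1 _ _ u (side_ne_zero b 2) he, rfl'_apply b 2, map_neg,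
          neg_div_neg_eq]
      show dblf b f y (rfl' b' 0 u) = _
      replace hRu : ‖rfl' b 2 u‖ = 1 := by rw [norm_rfl', hu]
      change b'.coord 0 y = 0 at hz
      rw [hR]
      rcases le_total 0 (b.coord 1 y) with h | h
      · rw [dblf, dblf, if_pos h, if_pos h]
        exact E.bounce 2 y u hu (mem_pos hb hy h) (by linarith)
      · rw [dblf_neg hr hb E hy h hRu, dblf_neg hr hb E hy h hu, hc]
        exact E.bounce 2 _ _ hρu (mem_neg hr hb hy h) (by linarith)
    · change b'.coord 1 y = 0 at hz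
      have h : b.coord 1 y ≤ 0 := by linarith [hy 2]
      have he : rfl' b 1 (side b' 1) = side b 0 := by
        have e : side b' 1 = (b 2 - b 0) + (b 1 - b 0) := by simp [side, hb, dbl]; ring
        rw [e, map_add, perp hr, hA]
        simp [side]
      show dblf b f y (rfl' b' 1 u) = _
      rw [dblf_neg hr hb E hy h (show ‖rfl' b' 1 u‖ = 1 by rw [norm_rfl', hu]),
        dblf_neg hr hb E hy h hu, rfl'_apply b' 1,
        refl_comm 1 _ _ u (side_ne_zero b' 1) he, ← rfl'_apply b 0]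
      exact E.bounce 0 _ _ hρu (mem_neg hr hb hy h) (by linarith)
    · change b'.coord 2 y = 0 at hz
      have h : 0 ≤ b.coord 1 y := by linarith [hy 1]
      have e : side b' 2 = -side b 0 := by simp [side, hb, dbl]
      show dblf b f y (rfl' b' 2 u) = _
      rw [dblf, dblf, if_pos h, if_pos h, rfl'_apply, e, map_neg, neg_div_neg_eq, ← rfl'_apply b 0]
      exact E.bounce 0 y u hu (mem_pos hb hy h) (by linarith)

omit hb in
/-- A right triangle with an irrational acute angle. -/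
theorem Eig.const_right (E : Eig b f l)
    (hα : Irrational (EuclideanGeometry.angle (b 0) (b 1) (b 2) / Real.pi)) :
    ∃ C : ℂ, (∀ y ∈ tri b, ∀ u : ℂ, ‖u‖ = 1 → f y u = C) ∧ (l ≠ 0 → C = 0) := by
  let b' : AffineBasis (Fin 3) ℝ ℂ := ⟨dbl b, dbl_ind,
    dbl_ind.affineSpan_eq_top_iff_card_eq_finrank_add_one.2 (by simp [Complex.finrank_real_complex])⟩
  have hb : ⇑b' = dbl b := rfl
  have h0 : (b' 0 : ℂ) = b 2 := rfl
  have h1 : (b' 1 : ℂ) = b 1 := rfl
  have h2 : (b' 2 : ℂ) = b 0 + (b 0 - b 1) := rfl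
  have hA : EuclideanGeometry.angle (b' 2) (b' 1) (b' 0) =
      EuclideanGeometry.angle (b 0) (b 1) (b 2) := by
    rw [EuclideanGeometry.angle, EuclideanGeometry.angle, h0, h1, h2]
    simp only [vsub_eq_sub]
    rw [show b 0 + (b 0 - b 1) - b 1 = (2 : ℝ) • (b 0 - b 1) by module,
      InnerProductGeometry.angle_smul_left_of_pos _ _ two_pos]
  have hB : EuclideanGeometry.angle (b' 0) (b' 2) (b' 1) =
      EuclideanGeometry.angle (b 0) (b 1) (b 2) := by
    rw [← hA, EuclideanGeometry.angle_comm (b' 2) (b' 1) (b' 0)]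
    refine (EuclideanGeometry.angle_eq_angle_of_dist_eq ?_).symm
    have hh : rfl' b 1 (b 2 - b 0) = b 2 - b 0 := by
      have h := rfl'_side (b := b) 1
      rw [show side b 1 = -(b 2 - b 0) by simp [side], map_neg, neg_inj] at h
      exact h
    rw [dist_eq_norm, dist_eq_norm, h0, h1, h2,
      show b 2 - (b 0 + (b 0 - b 1)) = (b 2 - b 0) + (b 1 - b 0) by ring,
      show b 2 - b 1 = (b 2 - b 0) + -(b 1 - b 0) by ring]
    conv_rhs => rw [← norm_rfl' b 1, map_add, perp hr, hh]
  have hsum := EuclideanGeometry.angle_add_angle_add_angle_eq_pi (b' 0) (b'.ind.injective.ne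
    (show (2 : Fin 3) ≠ 1 by decide))
  obtain ⟨C, hC, hC0⟩ := (dblf_eig hr hb E).const_all fun i => by
    fin_cases i
    · show Irrational (EuclideanGeometry.angle (b' 1) (b' 0) (b' 2) / Real.pi)
      have e : EuclideanGeometry.angle (b' 1) (b' 0) (b' 2) =
          Real.pi - 2 * EuclideanGeometry.angle (b 0) (b 1) (b 2) := by
        have := EuclideanGeometry.angle_comm (b' 1) (b' 0) (b' 2)
        have := EuclideanGeometry.angle_comm (b' 2) (b' 1) (b' 0)
        have := EuclideanGeometry.angle_comm (b' 0) (b' 2) (b' 1)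
        linarith
      rw [e, sub_div, div_self Real.pi_ne_zero, mul_div_assoc]
      have := (hα.natCast_mul (two_ne_zero : (2 : ℕ) ≠ 0)).natCast_sub 1
      simpa using this
    · show Irrational (EuclideanGeometry.angle (b' 2) (b' 1) (b' 0) / Real.pi)
      rw [hA]; exact hα
    · show Irrational (EuclideanGeometry.angle (b' 0) (b' 2) (b' 1) / Real.pi)
      rw [hB]; exact hα
  refine ⟨C, fun y hy u hu => ?_, hC0⟩
  rw [← hC y (mem_dbl hb hy) u hu, dblf, if_pos (hy 1)]

end Vale.Agent.P099
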