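import Mathlib

/-!
P099: the triangle, its reflections and one step of the billiard map.
-/

open scoped ComplexConjugate
open Complex Filter Topology

noncomputable section

namespace Vale.Agent.P099

/-- The unit direction of angle `θ`. -/
def dirv (θ : ℝ) : ℂ := Complex.exp (θ * Complex.I)

/-- The planar cross product. -/
def crs (u v : ℂ) : ℝ := u.re * v.im - u.im * v.re

theorem norm_dirv (θ : ℝ) : ‖dirv θ‖ = 1 := Complex.norm_exp_ofReal_mul_I θ

theorem dirv_ne_zero (θ : ℝ) : dirv θ ≠ 0 := Complex.exp_ne_zero _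

theorem dirv_re (θ : ℝ) : (dirv θ).re = Real.cos θ := Complex.exp_ofReal_mul_I_re θ

theorem dirv_im (θ : ℝ) : (dirv θ).im = Real.sin θ := Complex.exp_ofReal_mul_I_im θ

theorem continuous_dirv : Continuous dirv := by
  unfold dirv; fun_prop

theorem crs_dirv (a c : ℝ) : crs (dirv a) (dirv c) = Real.sin (c - a) := by
  simp only [crs, dirv_re, dirv_im, Real.sin_sub]; ring

theorem abs_crs_le (u v : ℂ) : |crs u v| ≤ ‖u‖ * ‖v‖ := by
  have h : crs u v = (conj u * v).im := by simp [crs]; ring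
  rw [h]
  calc |(conj u * v).im| ≤ ‖conj u * v‖ := Complex.abs_im_le_norm _
    _ = ‖u‖ * ‖v‖ := by rw [norm_mul, Complex.norm_conj]

variable (b : AffineBasis (Fin 3) ℝ ℂ)

/-- The linear part of a barycentric coordinate. -/
abbrev mu (i : Fin 3) : ℂ →ₗ[ℝ] ℝ := (b.coord i).linear

/-- The vector along the side opposite to `b i`. -/
def side (i : Fin 3) : ℂ := b (i + 2) - b (i + 1)

/-- The linear reflection in the direction of a side. -/
def rfl' (i : Fin 3) : ℂ →ₗ[ℝ] ℂ :=
  (side b i / conj (side b i)) • Complex.conjAe.toLinearMap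

theorem rfl'_apply (i : Fin 3) (u : ℂ) :
    rfl' b i u = (side b i / conj (side b i)) * conj u := rfl

/-- The affine reflection in the line of a side. -/
def reflA (i : Fin 3) : ℂ →ᵃ[ℝ] ℂ where
  toFun y := rfl' b i (y - b (i + 1)) + b (i + 1)
  linear := rfl' b i
  map_vadd' p v := by simp only [vadd_eq_add, add_sub_assoc, map_add, add_assoc]

theorem side_ne_zero (i : Fin 3) : side b i ≠ 0 := by
  intro h
  have h' : b (i + 2) = b (i + 1) := sub_eq_zero.1 h
  have := b.ind.injective h'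
  revert this; fin_cases i <;> decide

theorem conj_side_ne_zero (i : Fin 3) : conj (side b i) ≠ 0 := by
  simpa using side_ne_zero b i

theorem norm_rfl' (i : Fin 3) (u : ℂ) : ‖rfl' b i u‖ = ‖u‖ := by
  rw [rfl'_apply, norm_mul, norm_div, Complex.norm_conj, Complex.norm_conj,
    div_self (norm_ne_zero_iff.2 (side_ne_zero b i)), one_mul]

theorem aff_apply (g : ℂ →ᵃ[ℝ] ℂ) (y : ℂ) (t : ℝ) (u : ℂ) :
    g (y + t • u) = g y + t • g.linear u := by
  have := g.map_vadd y (t • u)
  simp only [vadd_eq_add, map_smul] at this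
  rw [add_comm, this, add_comm]

theorem coord_aff (i : Fin 3) (y : ℂ) (t : ℝ) (u : ℂ) :
    b.coord i (y + t • u) = b.coord i y + t * mu b i u := by
  have := (b.coord i).map_vadd y (t • u)
  simp only [vadd_eq_add, map_smul, smul_eq_mul] at this
  rw [add_comm, this, add_comm]

theorem coord_between (i : Fin 3) (y u : ℂ) (t₁ t t₂ : ℝ) (h₁ : 0 ≤ b.coord i (y + t₁ • u))
    (h₂ : 0 ≤ b.coord i (y + t₂ • u)) (h : t₁ ≤ t) (h' : t ≤ t₂) :
    0 ≤ b.coord i (y + t • u) := by
  rw [coord_aff] at *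
  rcases le_or_gt 0 (mu b i u) with hm | hm <;> nlinarith

theorem continuous_coord (i : Fin 3) : Continuous fun y => b.coord i y :=
  (b.coord i).continuous_of_finiteDimensional

theorem continuous_mu (i : Fin 3) : Continuous fun y => mu b i y :=
  (mu b i).continuous_of_finiteDimensional

theorem continuous_aff (g : ℂ →ᵃ[ℝ] ℂ) : Continuous g := g.continuous_of_finiteDimensional

theorem exists_mu_bound : ∃ C > 0, ∀ i u, |mu b i u| ≤ C * ‖u‖ := by
  refine ⟨1 + ∑ i, ‖LinearMap.toContinuousLinearMap (mu b i)‖, by positivity, fun i u => ?_⟩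
  calc |mu b i u| ≤ ‖LinearMap.toContinuousLinearMap (mu b i)‖ * ‖u‖ := by
        rw [← Real.norm_eq_abs]
        exact (LinearMap.toContinuousLinearMap (mu b i)).le_opNorm u
    _ ≤ _ := by
        refine mul_le_mul_of_nonneg_right ?_ (norm_nonneg u)
        have := Finset.single_le_sum (f := fun i => ‖LinearMap.toContinuousLinearMap (mu b i)‖)
          (fun i _ => norm_nonneg _) (Finset.mem_univ i)
        linarith

theorem sum_mu (u : ℂ) : ∑ i, mu b i u = 0 := by
  have h := b.sum_coord_apply_eq_one ((0 : ℂ) + (1 : ℝ) • u)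
  simp only [coord_aff, Finset.sum_add_distrib, one_mul, b.sum_coord_apply_eq_one] at h
  linarith

theorem eq_zero_of_mu (u : ℂ) (h : ∀ i, mu b i u = 0) : u = 0 := by
  have := b.ext_elem (q₁ := (0 : ℂ) + (1 : ℝ) • u) (q₂ := 0) fun i => by
    rw [coord_aff, h i, mul_zero, add_zero]
  simpa using this

theorem exists_mu_neg {u : ℂ} (hu : u ≠ 0) : ∃ i, mu b i u < 0 := by
  by_contra! h
  refine hu (eq_zero_of_mu b u fun i => le_antisymm ?_ (h i))
  have := Finset.single_le_sum (f := fun i => mu b i u) (fun i _ => h i) (Finset.mem_univ i)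
  rw [sum_mu] at this
  exact this

theorem coord_basis (i j : Fin 3) : b.coord i (b j) = if i = j then 1 else 0 := b.coord_apply i j

theorem mu_side_self (i : Fin 3) : mu b i (side b i) = 0 := by
  have h := (b.coord i).linearMap_vsub (b (i + 2)) (b (i + 1))
  simp only [vsub_eq_sub] at h
  rw [mu, side, h, coord_basis, coord_basis]
  fin_cases i <;> simp <;> decide

theorem rfl'_add_self (i : Fin 3) (u : ℂ) :
    rfl' b i u + u = (2 * (u / side b i).re) • side b i := by
  have h : ((2 * (u / side b i).re : ℝ) : ℂ) = u / side b i + conj (u / side b i) :=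
    (Complex.add_conj _).symm
  rw [Complex.real_smul, h, rfl'_apply, map_div₀]
  field_simp [side_ne_zero b i, conj_side_ne_zero b i]
  ring

theorem mu_rfl' (i : Fin 3) (u : ℂ) : mu b i (rfl' b i u) = - mu b i u := by
  have h := congrArg (mu b i) (rfl'_add_self b i u)
  simp only [map_add, map_smul, mu_side_self, smul_zero] at h
  linarith

theorem eq_of_coord_zero (i : Fin 3) (y : ℂ) (h : b.coord i y = 0) :
    y = b (i + 1) + b.coord (i + 2) y • side b i := by
  refine b.ext_elem fun k => ?_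
  have hk := (b.coord k).linearMap_vsub (b (i + 2)) (b (i + 1))
  simp only [vsub_eq_sub] at hk
  rw [coord_aff, mu, side, hk, coord_basis, coord_basis]
  have hs := b.sum_coord_apply_eq_one y
  rw [Fin.sum_univ_three] at hs
  fin_cases i <;> fin_cases k <;> simp at h ⊢ <;> linarith

theorem reflA_fix (i : Fin 3) (y : ℂ) (h : b.coord i y = 0) : reflA b i y = y := by
  show rfl' b i (y - b (i + 1)) + b (i + 1) = y
  rw [eq_of_coord_zero b i y h, add_sub_cancel_left, map_smul, rfl'_apply,
    div_mul_cancel₀ _ (conj_side_ne_zero b i), add_comm]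

theorem eq_vertex {i j : Fin 3} (hij : i ≠ j) {y : ℂ} (hi : b.coord i y = 0)
    (hj : b.coord j y = 0) : ∃ k, y = b k := by
  have hk : ∀ i j : Fin 3, i ≠ j → ∃ k, k ≠ i ∧ k ≠ j ∧ ∀ l, l = i ∨ l = j ∨ l = k := by decide
  obtain ⟨k, hki, hkj, hl⟩ := hk i j hij
  refine ⟨k, b.ext_elem fun l => ?_⟩
  rw [coord_basis]
  rcases hl l with rfl | rfl | rfl
  · rw [if_neg (Ne.symm hki), hi]
  · rw [if_neg (Ne.symm hkj), hj]
  · rw [if_pos rfl]
    have hs := b.sum_coord_apply_eq_one y
    rw [← hs, Finset.sum_eq_single l]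
    · intro m _ hm
      rcases hl m with rfl | rfl | rfl <;> first | exact hi | exact hj | exact absurd rfl hm
    · simp

/-- A state inside the triangle that points inwards. -/
def Inw (y u : ℂ) : Prop := ∀ i, 0 ≤ b.coord i y ∧ (b.coord i y = 0 → 0 < mu b i u)

/-- The inverse exit time through each side. -/
def rat (y u : ℂ) (i : Fin 3) : ℝ := - mu b i u / b.coord i y

/-- The inverse exit time. -/
def rho (y u : ℂ) : ℝ := Finset.univ.sup' Finset.univ_nonempty (rat b y u)

/-- The exit time. -/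
def tau (y u : ℂ) : ℝ := 1 / rho b y u

theorem exists_eq_rho (y u : ℂ) : ∃ j, rat b y u j = rho b y u := by
  obtain ⟨j, -, hj⟩ := Finset.exists_mem_eq_sup' Finset.univ_nonempty (rat b y u)
  exact ⟨j, hj.symm⟩

/-- An exit side. -/
def jex (y u : ℂ) : Fin 3 := (exists_eq_rho b y u).choose

theorem rat_jex (y u : ℂ) : rat b y u (jex b y u) = rho b y u :=
  (exists_eq_rho b y u).choose_spec

theorem rat_le (y u : ℂ) (i : Fin 3) : rat b y u i ≤ rho b y u :=
  Finset.le_sup' _ (Finset.mem_univ i)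

/-- The exit avoids the vertices. -/
def Simple (y u : ℂ) : Prop := ∃ j, ∀ i, i ≠ j → rat b y u i < rat b y u j

theorem jex_eq {y u : ℂ} {j : Fin 3} (h : ∀ i, i ≠ j → rat b y u i < rat b y u j) :
    jex b y u = j := by
  by_contra hne
  have := h _ hne
  rw [rat_jex] at this
  exact absurd this (not_lt.2 (rat_le b y u j))

theorem Simple.lt {y u : ℂ} (h : Simple b y u) {i : Fin 3} (hi : i ≠ jex b y u) :
    rat b y u i < rho b y u := by
  obtain ⟨j, hj⟩ := h
  rw [jex_eq b hj] at hi
  exact lt_of_lt_of_le (hj i hi) (rat_le b y u j)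

variable {b}

theorem Inw.rho_pos {y u : ℂ} (h : Inw b y u) (hu : u ≠ 0) : 0 < rho b y u := by
  obtain ⟨i, hi⟩ := exists_mu_neg b hu
  have hc : 0 < b.coord i y := by
    refine lt_of_le_of_ne (h i).1 fun he => ?_
    linarith [(h i).2 he.symm]
  exact lt_of_lt_of_le (div_pos (by linarith) hc) (rat_le b y u i)

theorem Inw.tau_pos {y u : ℂ} (h : Inw b y u) (hu : u ≠ 0) : 0 < tau b y u :=
  one_div_pos.2 (h.rho_pos hu)

theorem Inw.coord_exit {y u : ℂ} (h : Inw b y u) (hu : u ≠ 0) (i : Fin 3) :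
    b.coord i (y + tau b y u • u) = 0 ∧ rat b y u i = rho b y u ∨
      0 < b.coord i (y + tau b y u • u) ∧ rat b y u i < rho b y u := by
  have hr := h.rho_pos hu
  rw [coord_aff, tau]
  rcases (h i).1.lt_or_eq with hc | hc
  · have he : b.coord i y + 1 / rho b y u * mu b i u =
        b.coord i y * (rho b y u - rat b y u i) / rho b y u := by
      unfold rat; field_simp; ring
    rw [he]
    rcases (rat_le b y u i).lt_or_eq with hl | hl
    · exact Or.inr ⟨div_pos (mul_pos hc (by linarith)) hr, hl⟩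
    · exact Or.inl ⟨by rw [hl, sub_self, mul_zero, zero_div], hl⟩
  · refine Or.inr ⟨?_, ?_⟩
    · rw [← hc, zero_add]
      exact mul_pos (one_div_pos.2 hr) ((h i).2 hc.symm)
    · simpa [rat, ← hc] using hr

theorem Inw.exit_nonneg {y u : ℂ} (h : Inw b y u) (hu : u ≠ 0) (i : Fin 3) :
    0 ≤ b.coord i (y + tau b y u • u) := by
  rcases h.coord_exit hu i with ⟨e, -⟩ | ⟨e, -⟩ <;> linarith

theorem Inw.exit_jex {y u : ℂ} (h : Inw b y u) (hu : u ≠ 0) :
    b.coord (jex b y u) (y + tau b y u • u) = 0 := by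
  rcases h.coord_exit hu (jex b y u) with ⟨e, -⟩ | ⟨-, e⟩
  · exact e
  · exact absurd (rat_jex b y u) e.ne

theorem Inw.jex_pos {y u : ℂ} (h : Inw b y u) (hu : u ≠ 0) :
    0 < b.coord (jex b y u) y ∧ mu b (jex b y u) u < 0 := by
  have hr := h.rho_pos hu
  rw [← rat_jex b y u, rat] at hr
  rcases (h (jex b y u)).1.lt_or_eq with hc | hc
  · exact ⟨hc, by have := (div_pos_iff_of_pos_right hc).1 hr; linarith⟩
  · simp [← hc] at hr

theorem Inw.exit_pos {y u : ℂ} (h : Inw b y u) (hu : u ≠ 0) (hs : Simple b y u) {i : Fin 3}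
    (hi : i ≠ jex b y u) : 0 < b.coord i (y + tau b y u • u) := by
  rcases h.coord_exit hu i with ⟨-, e⟩ | ⟨e, -⟩
  · exact absurd e (hs.lt b hi).ne
  · exact e

theorem Inw.exit_vertex {y u : ℂ} (h : Inw b y u) (hu : u ≠ 0) (hs : ¬ Simple b y u) :
    ∃ k, y + tau b y u • u = b k := by
  have : ∃ i, i ≠ jex b y u ∧ rat b y u i = rho b y u := by
    by_contra! hc
    refine hs ⟨jex b y u, fun i hi => ?_⟩
    rw [rat_jex]
    exact lt_of_le_of_ne (rat_le b y u i) (hc i hi)
  obtain ⟨i, hi, he⟩ := this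
  refine eq_vertex b hi ?_ (h.exit_jex hu)
  rcases h.coord_exit hu i with ⟨e, -⟩ | ⟨-, e⟩
  · exact e
  · exact absurd he e.ne

theorem Inw.step {y u : ℂ} (h : Inw b y u) (hu : u ≠ 0) (hs : Simple b y u) :
    Inw b (y + tau b y u • u) (rfl' b (jex b y u) u) := by
  intro i
  refine ⟨h.exit_nonneg hu i, fun hi => ?_⟩
  by_cases he : i = jex b y u
  · subst he
    rw [mu_rfl']
    linarith [(h.jex_pos hu).2]
  · exact absurd hi (h.exit_pos hu hs he).ne'

end Vale.Agent.P099
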